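import Crest.Agent.N255.Lv.Tr
import Mathlib
import Crest.Agent.N255.Pt.Mir
import Crest.Agent.N255.Fa.Hyp

-- ▼ part N255/Lv/Abs
section

/-!
# Row 255 (helper32): nested level functions from cut functions
-/

set_option autoImplicit false

noncomputable section

namespace Crest.Agent.N255.Lv

open FreeGroup Pt

variable {ι : Type} [DecidableEq ι] {P : Type}

/-- cut functions which are `1` when the position is strictly on the head side -/
structure Cut (ι P : Type) [DecidableEq ι] where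
  pos : P → Nd ι
  h : Ed ι → P → ℝ
  nn : ∀ e p, 0 ≤ h e p
  h_rev : ∀ e p, h (rev e) p = 1 - h e p
  one : ∀ e p, Hd e (pos p) → h e p = 1

namespace Cut

variable (C : Cut ι P) {e e' : Ed ι} {p q : P}

theorem le_one (e : Ed ι) (p : P) : C.h e p ≤ 1 := by
  have := C.nn (rev e) p
  rw [C.h_rev] at this
  linarith

theorem zero (h : Hd (rev e) (C.pos p)) : C.h e p = 0 := by
  have := C.one _ _ h
  rw [C.h_rev] at this
  linarith


theorem frac (h : C.h e p ≠ 0) (k : C.h e p ≠ 1) : C.pos p = tgt e :=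
  ((trich e _).resolve_left fun a => k (C.one _ _ a)).resolve_left fun a => h (C.zero a)

theorem fin (e : Ed ι) (p : P) : ({e' | Bey e e'} ∩ Function.support fun e' => C.h e' p).Finite :=
  (bey_finite e (C.pos p)).subset fun _ h => ⟨h.1, fun a => h.2 (C.zero a)⟩

/-- the sum over the edges beyond `e` -/
def B (e : Ed ι) (p : P) : ℝ := ∑ᶠ e' ∈ {e' | Bey e e'}, C.h e' p

/-- **the level function** -/
def H (e : Ed ι) (p : P) : ℝ := C.h e p + C.B e p - C.B (rev e) p

theorem B_eq {s : Finset (Ed ι)} (h : ∀ e' ∈ s, Bey e e') (k : ∀ e', Bey e e' → C.h e' p ≠ 0 → e' ∈ s) :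
    C.B e p = ∑ e' ∈ s, C.h e' p :=
  finsum_mem_eq_sum_of_inter_support_eq _ (Set.ext fun a =>
    ⟨fun b => ⟨k a b.1 b.2, b.2⟩, fun b => ⟨h a b.1, b.2⟩⟩)

theorem B_eq' (e : Ed ι) (p : P) : C.B e p = ∑ e' ∈ (C.fin e p).toFinset, C.h e' p :=
  C.B_eq (fun _ h => ((C.fin e p).mem_toFinset.1 h).1) fun _ h k => (C.fin e p).mem_toFinset.2 ⟨h, k⟩

theorem B_nn (e : Ed ι) (p : P) : 0 ≤ C.B e p := by
  rw [B_eq']; exact Finset.sum_nonneg fun _ _ => C.nn _ _

theorem B_zero (h : ¬Hd e (C.pos p)) : C.B e p = 0 := by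
  rw [C.B_eq (s := ∅) (by simp) fun e' a b => absurd (a _ fun c => b (C.zero c)) h, Finset.sum_empty]


theorem B_bey (h : Bey e e') (p : P) : C.h e' p + C.B e' p ≤ C.B e p := by
  classical
  have n : e' ∉ (C.fin e' p).toFinset := fun a => not_bey_self _ ((C.fin e' p).mem_toFinset.1 a).1
  rw [C.B_eq' e', ← Finset.sum_insert (f := fun e' => C.h e' p) n,
    C.B_eq (s := insert e' (C.fin e' p).toFinset ∪ (C.fin e p).toFinset)
      (fun a b => ?_) fun a b c => Finset.mem_union_right _ ((C.fin e p).mem_toFinset.2 ⟨b, c⟩)]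
  · exact Finset.sum_le_sum_of_subset_of_nonneg Finset.subset_union_left fun _ _ _ => C.nn _ _
  · simp only [Finset.mem_union, Finset.mem_insert, Set.Finite.mem_toFinset] at b
    rcases b with (rfl | b) | b
    exacts [h, h.trans b.1, b.1]

theorem H_rev (e : Ed ι) (p : P) : C.H (rev e) p = 1 - C.H e p := by
  rw [H, H, rev_rev, C.h_rev]; ring

/-- **nesting of the levels** -/
theorem H_bey (h : Bey e e') (p : P) : C.H e' p + 1 ≤ C.H e p := by
  have a := C.B_bey h p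
  have b := C.B_bey h.symm p
  rw [C.h_rev] at b
  rw [H, H]
  linarith

theorem h_le_H (h : ¬Hd (rev e) (C.pos p)) : C.h e p ≤ C.H e p := by
  rw [H, C.B_zero h]; linarith [C.B_nn e p]

theorem H_le_h (h : ¬Hd e (C.pos p)) : C.H e p ≤ C.h e p := by
  rw [H, C.B_zero h]; linarith [C.B_nn (rev e) p]

theorem H_nn (h : ¬Hd (rev e) (C.pos p)) : 0 ≤ C.H e p := (C.nn e p).trans (C.h_le_H h)


theorem one_le_H (h : Hd e (C.pos p)) : 1 ≤ C.H e p := C.one _ _ h ▸ C.h_le_H h.not_rev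

theorem H_np (h : Hd (rev e) (C.pos p)) : C.H e p ≤ 0 :=
  C.zero h ▸ C.H_le_h fun a => a.not_rev h

theorem H_tgt (h : C.pos p = tgt e) : C.H e p = C.h e p :=
  le_antisymm (C.H_le_h (h ▸ not_Hd_tgt e)) (C.h_le_H (h ▸ tgt_rev e ▸ not_Hd_tgt _))

/-- `h` is the clamped level -/
theorem clamp (e : Ed ι) (p : P) : max 0 (min 1 (C.H e p)) = C.h e p := by
  rcases trich e (C.pos p) with a | a | a
  · rw [min_eq_left (C.one_le_H a), C.one _ _ a]; simp
  · rw [C.zero a]; exact max_eq_left ((min_le_right _ _).trans (C.H_np a))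
  · rw [C.H_tgt a, min_eq_right (C.le_one e p), max_eq_right (C.nn e p)]



theorem H_lt_iff {a : ℝ} (h : 0 < a) (k : a ≤ 1) : C.H e p < a ↔ C.h e p < a := by
  rw [← C.clamp, max_lt_iff, min_lt_iff]
  exact ⟨fun b => ⟨h, .inr b⟩, fun b => b.2.elim (fun c => absurd c k.not_gt) id⟩


/-- equivariance -/
theorem B_smul (g : FreeGroup ι) (k : ∀ e, C.h (g • e) q = C.h e p) (e : Ed ι) : C.B (g • e) q = C.B e p := by
  symm
  exact finsum_mem_eq_of_bijOn (g • ·) ⟨fun _ a => (bey_smul g).2 a, (MulAction.injective g).injOn, fun a b => by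
    obtain ⟨a, rfl⟩ := MulAction.surjective g a
    exact ⟨a, (bey_smul g).1 b, rfl⟩⟩ fun a _ => (k a).symm

theorem H_smul (g : FreeGroup ι) (k : ∀ e, C.h (g • e) q = C.h e p) (e : Ed ι) : C.H (g • e) q = C.H e p := by
  rw [H, H, rev_smul, C.B_smul g k, C.B_smul g k, k]

/-- the level is at least the depth -/
theorem depth {u : FreeGroup ι} (hu : En (C.pos p) u) (n : ℕ) : ∀ e, hs e u → d u (hd e) = n → n ≤ C.H e p := by
  induction n with
  | zero => exact fun e h _ => by simpa using C.H_nn (not_Hd_rev hu h)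
  | succ n ih =>
    intro e h k
    obtain ⟨j, hj⟩ := d_down k
    have a := ih ⟨hd e, j⟩ (show d u (hd e * x j) < d u (hd e) by omega) hj
    have b := C.H_bey (e := e) (e' := ⟨hd e, j⟩) (bey_next rfl fun c => by
      have c1 : hd e * x j = e.v := (congrArg hd c).trans (hd_rev e)
      rw [c1] at hj
      have := hs_iff.1 h
      omega) p
    push_cast
    linarith

theorem d_le {r : FreeGroup ι} {N c : ℕ} (h : ∀ e, Out r N e → C.H e p ≤ c) : d r (C.pos p).v ≤ N + c + 1 := by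
  by_contra a
  obtain ⟨e, h1, h2, h3⟩ := exists_out r (C.pos p).v (N := N) (by omega)
  have := Nat.cast_le.1 ((C.depth (en_v _) _ e h2 rfl).trans (h e h1))
  omega



/-- the edges where `h` differs -/
theorem diff_finite (p q : P) : {e | C.h e p ≠ C.h e q}.Finite := by
  refine ((Sep_finite (C.pos p) (C.pos q)).union (((Sep_finite (C.pos p) (C.pos q)).preimage
    rev_injective.injOn).union (finite_tgt (C.pos p)))).subset fun e h => ?_
  rcases trich e (C.pos p) with a | a | a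
  · exact .inl ⟨a, fun b => h (by rw [C.one _ _ a, C.one _ _ b])⟩
  · exact .inr (.inl ⟨a, fun b => h (by rw [C.zero a, C.zero b])⟩)
  · exact .inr (.inr a.symm)

theorem B_sub {ε : ℝ} (hε : ∀ e, |C.h e p - C.h e q| ≤ ε) (e : Ed ι) :
    |C.B e p - C.B e q| ≤ {e | C.h e p ≠ C.h e q}.ncard * ε := by
  classical
  have e0 : 0 ≤ ε := (abs_nonneg _).trans (hε e)
  let s := (C.fin e p).toFinset ∪ (C.fin e q).toFinset
  have hs : ∀ e' ∈ s, Bey e e' := fun a b => by
    simp only [s, Finset.mem_union, Set.Finite.mem_toFinset] at b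
    exact b.elim And.left And.left
  rw [C.B_eq hs fun a b c => Finset.mem_union_left _ ((C.fin e p).mem_toFinset.2 ⟨b, c⟩),
    C.B_eq hs fun a b c => Finset.mem_union_right _ ((C.fin e q).mem_toFinset.2 ⟨b, c⟩),
    ← Finset.sum_sub_distrib, ← Finset.sum_filter_ne_zero]
  refine (Finset.abs_sum_le_sum_abs _ _).trans ((Finset.sum_le_card_nsmul _ _ ε fun a _ => hε a).trans ?_)
  rw [nsmul_eq_mul]
  refine mul_le_mul_of_nonneg_right (Nat.cast_le.2 ?_) e0
  rw [← Set.ncard_coe_finset]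
  exact Set.ncard_le_ncard (fun a b => sub_ne_zero.1 (Finset.mem_filter.1 b).2) (C.diff_finite p q)

theorem H_sub {ε : ℝ} (hε : ∀ e, |C.h e p - C.h e q| ≤ ε) (e : Ed ι) :
    |C.H e p - C.H e q| ≤ (1 + 2 * {e | C.h e p ≠ C.h e q}.ncard) * ε := by
  have a := abs_le.1 (C.B_sub hε e)
  have b := abs_le.1 (C.B_sub hε (rev e))
  have c := abs_le.1 (hε e)
  rw [H, H, abs_le]
  constructor <;> linarith [a.1, a.2, b.1, b.2, c.1, c.2]

theorem h_sub (e : Ed ι) (p q : P) : |C.h e p - C.h e q| ≤ 1 :=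
  abs_le.2 ⟨by linarith [C.nn e p, C.le_one e q], by linarith [C.nn e q, C.le_one e p]⟩

/-- **slow variation passes from `h` to `H`** -/
theorem H_slow {ε : ℝ} (h1 : ε < 1) (hε : ∀ e, |C.h e p - C.h e q| ≤ ε) (e : Ed ι) :
    |C.H e p - C.H e q| ≤ 9 * ε := by
  refine (C.H_sub hε e).trans (mul_le_mul_of_nonneg_right ?_ ((abs_nonneg _).trans (hε e)))
  have : {e | C.h e p ≠ C.h e q}.ncard ≤ 4 := by
    refine (Set.ncard_le_ncard (t := {e | tgt e = C.pos p} ∪ {e | tgt e = C.pos q}) (fun a b => ?_)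
      ((finite_tgt _).union (finite_tgt _))).trans ((Set.ncard_union_le _ _).trans
        (add_le_add (ncard_tgt _) (ncard_tgt _)))
    by_contra c
    have c1 := mt (fun k : C.h a p ≠ 0 ∧ C.h a p ≠ 1 => (C.frac k.1 k.2).symm) fun k => c (.inl k)
    have c2 := mt (fun k : C.h a q ≠ 0 ∧ C.h a q ≠ 1 => (C.frac k.1 k.2).symm) fun k => c (.inr k)
    have c3 := hε a
    rw [not_and_or, not_not, not_not] at c1 c2
    have b' : C.h a p ≠ C.h a q := b
    rcases c1 with c1 | c1 <;> rcases c2 with c2 | c2 <;> rw [c1, c2] at b' c3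
    · exact b' rfl
    · norm_num at c3; linarith
    · norm_num at c3; linarith
    · exact b' rfl
  have : ({e | C.h e p ≠ C.h e q}.ncard : ℝ) ≤ 4 := by exact_mod_cast this
  linarith

end Cut

end Crest.Agent.N255.Lv
end
end

-- ▼ part N255/Lv/Slow
section

/-!
# Row 255 (helper32): slowly growing functions
-/

set_option autoImplicit false

noncomputable section

namespace Crest.Agent.N255.Lv

open Filter

/-- slowly growing functions adapted to a control function `c` -/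
structure Slow (c : ℕ → ℕ) where
  lam : ℕ → ℕ
  j : ℕ → ℕ
  lam_mono : Monotone lam
  j_mono : Monotone j
  lam_zero : lam 0 = 0
  lam_c : ∀ n m, m ≤ n → lam (n + c m + 4 * n + 1) ≤ lam n + 1
  j_c : ∀ n m, m ≤ n → j (n + c m + 4 * n + 1) ≤ j n + 1
  one_le_j : ∀ r, 1 ≤ j r
  j_le : ∀ r m, 0 < m → r ≤ 4 * m → j r ≤ lam m
  j_top : ∀ C, ∃ R, ∀ r ≥ R, C ≤ j r
  ratio : ∀ C k : ℕ, ∃ R, ∀ r ≥ R, ∀ m, r ≤ k * m → C * j r ≤ lam m

theorem exists_slow (c : ℕ → ℕ) : Nonempty (Slow c) := by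
  let c' : ℕ → ℕ := fun n => (Finset.range (n + 1)).sup c + 4 * n + 1
  have hc : Monotone c' := fun n m h => by
    have := Finset.sup_mono (f := c) (Finset.range_mono (Nat.succ_le_succ h))
    simp only [c', Nat.succ_eq_add_one] at this ⊢
    omega
  let a : ℕ → ℕ := fun k => Nat.rec 0 (fun _ b => b + c' b) k
  have ha : ∀ k, a (k + 1) = a k + c' (a k) := fun _ => rfl
  have hm : StrictMono a := strictMono_nat_of_lt_succ fun k => by rw [ha]; simp only [c']; omega
  have ex : ∀ n, ∃ k, n ≤ a k := fun n => ⟨n, hm.le_apply⟩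
  obtain ⟨lam, le⟩ : ∃ lam : ℕ → ℕ, ∀ n k, lam n ≤ k ↔ n ≤ a k := ⟨fun n => sInf {k | n ≤ a k}, fun n k =>
    ⟨fun h => le_trans (Nat.sInf_mem (s := {k | n ≤ a k}) (ex n)) (hm.monotone h), fun h => Nat.sInf_le h⟩⟩
  have lm : Monotone lam := fun n m h => (le _ _).2 (h.trans ((le _ _).1 le_rfl))
  have st : ∀ n m, m ≤ n → lam (n + c m + 4 * n + 1) ≤ lam n + 1 := fun n m h => by
    have h1 := (le n _).1 le_rfl
    have h2 := hc h1
    have h3 : c m ≤ (Finset.range (n + 1)).sup c := Finset.le_sup (Finset.mem_range.2 (by omega))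
    rw [le, ha]
    simp only [c'] at h2 ⊢
    omega
  have pos : ∀ m, 0 < m → 1 ≤ lam m := fun m h => by
    by_contra b
    have : m ≤ 0 := (le m 0).1 (by omega)
    omega
  have top : ∀ C, ∃ R, ∀ r ≥ R, C ≤ Nat.sqrt (lam r) := fun C => ⟨a (C * C) + 1, fun r h => by
    rw [Nat.le_sqrt]
    by_contra b
    have := (le r (C * C)).1 (by omega)
    omega⟩
  have mul : ∀ m k, lam (k * m) ≤ lam m + k := fun m k => by
    induction k with
    | zero => simpa using lm (Nat.zero_le m)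
    | succ k ih =>
      rcases Nat.eq_zero_or_pos k with rfl | hk
      · simp
      · have := st (k * m) 0 (Nat.zero_le _)
        have := lm (show (k + 1) * m ≤ k * m + c 0 + 4 * (k * m) + 1 by nlinarith)
        omega
  refine ⟨⟨lam, fun r => max 1 (Nat.sqrt (lam r)), lm, fun n m h => max_le_max le_rfl (Nat.sqrt_le_sqrt (lm h)),
    Nat.le_zero.1 ((le 0 0).2 (Nat.zero_le _)), st, fun n m h => ?_, fun r => le_max_left _ _,
    fun r m h k => ?_, fun C => (top C).imp fun R h r k => (h r k).trans (le_max_right _ _), fun C k => ?_⟩⟩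
  · have := (Nat.sqrt_le_sqrt (st n m h)).trans (Nat.sqrt_succ_le_succ_sqrt _)
    omega
  · have h1 := pos m h
    have h2 := st m 0 (Nat.zero_le _)
    have h3 := lm (show r ≤ m + c 0 + 4 * m + 1 by omega)
    have h4 := Nat.sqrt_le_sqrt (h3.trans h2)
    have h5 := Nat.sqrt_lt_self (show 1 < lam m + 1 by omega)
    omega
  · refine (top (C + k + 1)).imp fun R h r hr m hm => ?_
    have h1 := h r hr
    have h2 := Nat.sqrt_le (lam r)
    have h3 := (lm hm).trans (mul m k)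
    rw [max_eq_right (by omega)]
    nlinarith

namespace Slow

variable {c : ℕ → ℕ} (s : Slow c)

theorem lam_step {n n' m : ℕ} (h : m ≤ n) (k : n' ≤ n + c m) : s.lam n' ≤ s.lam n + 1 :=
  (s.lam_mono (by omega)).trans (s.lam_c n m h)


theorem lam_five {n n' : ℕ} (k : n' ≤ 5 * n + 1) : s.lam n' ≤ s.lam n + 1 :=
  (s.lam_mono (by omega)).trans (s.lam_c n 0 (Nat.zero_le _))

theorem j_five {n n' : ℕ} (k : n' ≤ 5 * n + 1) : s.j n' ≤ s.j n + 1 :=
  (s.j_mono (by omega)).trans (s.j_c n 0 (Nat.zero_le _))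

theorem lam_add (n d : ℕ) : s.lam (n + d) ≤ s.lam n + d := by
  induction d with
  | zero => rfl
  | succ d ih => have := s.lam_five (n := n + d) (n' := n + (d + 1)) (by omega); omega

theorem j_add (n d : ℕ) : s.j (n + d) ≤ s.j n + d := by
  induction d with
  | zero => rfl
  | succ d ih => have := s.j_five (n := n + d) (n' := n + (d + 1)) (by omega); omega

theorem lam_le {n n' d : ℕ} (h : n' ≤ n + d) : s.lam n' ≤ s.lam n + d := (s.lam_mono h).trans (s.lam_add n d)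

theorem j_le' {n n' d : ℕ} (h : n' ≤ n + d) : s.j n' ≤ s.j n + d := (s.j_mono h).trans (s.j_add n d)

theorem lam_pos {n : ℕ} : 0 < s.lam n ↔ 0 < n :=
  ⟨fun h => Nat.pos_of_ne_zero fun a => by simp [a, s.lam_zero] at h,
    fun h => (s.one_le_j 0).trans (s.j_le 0 n h (Nat.zero_le _))⟩


theorem j_pos (r : ℕ) : (0 : ℝ) < s.j r := by exact_mod_cast s.one_le_j r

/-- the slow quotient -/
def q (n r : ℕ) : ℝ := s.lam n / s.j r

theorem q_nn (n r : ℕ) : 0 ≤ s.q n r := div_nonneg (Nat.cast_nonneg _) (Nat.cast_nonneg _)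

@[simp] theorem q_zero (r : ℕ) : s.q 0 r = 0 := by simp [q, s.lam_zero]

theorem q_pos {n r : ℕ} : 0 < s.q n r ↔ 0 < n := by
  rw [q, div_pos_iff_of_pos_right (s.j_pos r), Nat.cast_pos, s.lam_pos]

theorem q_mono {n n' r r' : ℕ} (h : n ≤ n') (k : r' ≤ r) : s.q n r ≤ s.q n' r' :=
  div_le_div₀ (Nat.cast_nonneg _) (Nat.cast_le.2 (s.lam_mono h)) (s.j_pos _) (Nat.cast_le.2 (s.j_mono k))

theorem one_le_q {n r : ℕ} (h : 0 < n) (k : r ≤ 4 * n) : 1 ≤ s.q n r :=
  (one_le_div (s.j_pos r)).2 (Nat.cast_le.2 (s.j_le r n h k))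

theorem q_top (C : ℝ) (k : ℕ) : ∃ R, ∀ r ≥ R, ∀ n, r ≤ k * n → C ≤ s.q n r := by
  obtain ⟨R, h⟩ := s.ratio ⌈C⌉₊ k
  refine ⟨R, fun r a n b => (Nat.le_ceil C).trans ((le_div_iff₀ (s.j_pos r)).2 ?_)⟩
  exact_mod_cast h r a n b

/-- one sided estimate: `lam` and `j` move by at most `d` -/
theorem q_le {n n' r r' d : ℕ} {C : ℝ} (h : s.lam n' ≤ s.lam n + d) (k : s.j r ≤ s.j r' + d) (hC : s.q n r ≤ C) :
    s.q n' r' ≤ s.q n r + (C + 1) * d / s.j r' := by
  have p := s.j_pos r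
  have p' := s.j_pos r'
  have h' : (s.lam n' : ℝ) ≤ s.lam n + d := by exact_mod_cast h
  have k' : (s.j r : ℝ) ≤ s.j r' + d := by exact_mod_cast k
  have e : (s.lam n : ℝ) = s.q n r * s.j r := by rw [q, div_mul_cancel₀ _ p.ne']
  have d0 : (0 : ℝ) ≤ d := Nat.cast_nonneg _
  rw [q.eq_1 s n' r', div_le_iff₀ p', add_mul, div_mul_cancel₀ _ p'.ne']
  nlinarith [s.q_nn n r, mul_le_mul_of_nonneg_left k' (s.q_nn n r), mul_le_mul_of_nonneg_right hC d0]

/-- **slow variation** -/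
theorem q_slow (C : ℝ) {ε : ℝ} (hε : 0 < ε) (d : ℕ) : ∃ R, ∀ r' ≥ R, ∀ n n' r, s.lam n' ≤ s.lam n + d →
    s.j r ≤ s.j r' + d → s.q n r ≤ C → s.q n' r' ≤ s.q n r + ε := by
  obtain ⟨R, h⟩ := s.j_top ⌈(C + 1) * d / ε⌉₊
  refine ⟨R, fun r' a n n' r b c e => (s.q_le b c e).trans (add_le_add le_rfl ?_)⟩
  have := (Nat.le_ceil _).trans (Nat.cast_le.2 (h r' a))
  rw [div_le_iff₀ hε] at this
  rw [div_le_iff₀ (s.j_pos r')]
  linarith

theorem min_q_slow (C : ℝ) {ε : ℝ} (hε : 0 < ε) (d : ℕ) : ∃ R, ∀ r ≥ R, ∀ r' ≥ R, ∀ n n',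
    s.lam n' ≤ s.lam n + d → s.lam n ≤ s.lam n' + d → s.j r' ≤ s.j r + d → s.j r ≤ s.j r' + d →
    |min C (s.q n r) - min C (s.q n' r')| ≤ ε := by
  obtain ⟨R, h⟩ := s.q_slow C hε d
  have key : ∀ r' ≥ R, ∀ n n' r, s.lam n' ≤ s.lam n + d → s.j r ≤ s.j r' + d →
      min C (s.q n' r') ≤ min C (s.q n r) + ε := fun r' a n n' r b c => by
    rcases le_total C (s.q n r) with e | e
    · rw [min_eq_left e]; linarith [min_le_left C (s.q n' r')]
    · rw [min_eq_right e]; exact (min_le_right _ _).trans (h r' a n n' r b c e)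
  refine ⟨R, fun r a r' a' n n' b b' c c' => abs_le.2 ⟨?_, ?_⟩⟩
  · linarith [key r' a' n n' r b c']
  · linarith [key r a n' n r' b' c]

end Slow

end Crest.Agent.N255.Lv
end
end

-- ▼ part N255/Lv/Pt

/-!
# Row 255 (helper32): the slow level functions on the vertices of the cube complex
-/

set_option autoImplicit false

noncomputable section

namespace Crest.Agent.N255.Lv

open FreeGroup Pt Fa Ra
open scoped Classical

section gen

variable {S K F Nd Ed : Type} [DecidableEq S] [Group F] [MulAction F Nd] [MulAction F Ed]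
  (M : Ce.Mir S K F Nd Ed) {c : ℕ → ℕ} (s : Slow c)

/-- the action of `F` on the vertices -/
def ac (f : F) (x : Vt M) : Vt M := (SemidirectProduct.inr f : M.G0) • x

/-- the slow distance to a quadrant -/
def mu (Z : Set S) (x : Vt M) : ℝ := s.q (ds M Z x) (rad M x)

/-- the slow depth behind a wall -/
def nu (a : S) (x : Vt M) : ℝ := s.q (n M a x) (rad M x)

variable {M} {x y : Vt M} {Z Z' : Set S} {a : S}

theorem nu_eq (a : S) : nu M s a = mu M s {a} := rfl
theorem ac_snd (f : F) (x : Vt M) : (ac M f x).2 = f • x.2 := by rw [ac, inr_smul]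
theorem ac_one (x : Vt M) : ac M 1 x = x := by rw [ac, _root_.map_one, one_smul]
theorem ac_mul (f g : F) (x : Vt M) : ac M (f * g) x = ac M f (ac M g x) := by rw [ac, _root_.map_mul, mul_smul]; rfl
theorem ac_inv (f : F) (x : Vt M) : ac M f⁻¹ (ac M f x) = x := by rw [← ac_mul, inv_mul_cancel, ac_one]
theorem ac_inv' (f : F) (x : Vt M) : ac M f (ac M f⁻¹ x) = x := by rw [← ac_mul, mul_inv_cancel, ac_one]
theorem dl_ac (f : F) (x y : Vt M) : dl M (ac M f x) (ac M f y) = dl M x y := dl_smul _ _ _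
theorem rad_ac (f : F) (x : Vt M) : rad M (ac M f x) = rad M x := rad_inr f x
theorem ds_ac (f : F) (Z : Set S) (x : Vt M) : ds M (M.ρ f '' Z) (ac M f x) = ds M Z x := ds_inr f Z x
theorem n_ac (f : F) (a : S) (x : Vt M) : n M (M.ρ f a) (ac M f x) = n M a x := n_inr f a x
theorem mu_ac (f : F) (Z : Set S) (x : Vt M) : mu M s (M.ρ f '' Z) (ac M f x) = mu M s Z x := by
  rw [mu, ds_ac, rad_ac, mu]
theorem mu_nn (Z : Set S) (x : Vt M) : 0 ≤ mu M s Z x := s.q_nn _ _
theorem mu_mono (h : Z ⊆ Z') (x : Vt M) : mu M s Z x ≤ mu M s Z' x := s.q_mono (ds_mono h x) le_rfl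
theorem nu_pos : 0 < nu M s a x ↔ a ∈ Init x.1 := s.q_pos.trans n_pos

variable (M) in
/-- **slow variation** of `mu` and `nu` -/
theorem mu_slow (C : ℝ) {ε : ℝ} (hε : 0 < ε) (d : ℕ) : ∃ R, ∀ x y : Vt M, R ≤ rad M x → dl M x y ≤ d → ∀ Z,
    (mu M s Z x ≤ C → mu M s Z y ≤ mu M s Z x + ε) ∧ (mu M s Z y ≤ C → mu M s Z x ≤ mu M s Z y + ε) := by
  obtain ⟨R, h⟩ := s.q_slow C hε d
  refine ⟨R + d, fun x y a b Z => ?_⟩
  have h1 := rad_lip x y
  have h2 := rad_lip y x
  have h3 := ds_lip Z x y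
  have h4 := ds_lip Z y x
  rw [dl_comm'] at h2 h4
  exact ⟨h _ (by omega) _ _ _ (s.lam_le (by omega)) (s.j_le' (by omega)),
    h _ (by omega) _ _ _ (s.lam_le (by omega)) (s.j_le' (by omega))⟩

variable (M) in
theorem min_mu_slow (C : ℝ) {ε : ℝ} (hε : 0 < ε) (d : ℕ) : ∃ R, ∀ x y : Vt M, R ≤ rad M x → dl M x y ≤ d → ∀ Z,
    |min C (mu M s Z x) - min C (mu M s Z y)| ≤ ε := by
  obtain ⟨R, h⟩ := s.min_q_slow C hε d
  refine ⟨R + d, fun x y a b Z => ?_⟩
  have h1 := rad_lip x y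
  have h2 := rad_lip y x
  have h3 := ds_lip Z x y
  have h4 := ds_lip Z y x
  rw [dl_comm'] at h2 h4
  exact h _ (by omega) _ (by omega) _ _ (s.lam_le (by omega)) (s.lam_le (by omega)) (s.j_le' (by omega))
    (s.j_le' (by omega))

variable (M) in
/-- `mu Z` is almost the maximum of the `nu a` -/
theorem mu_le_nu {ε : ℝ} (hε : 0 < ε) : ∃ R, ∀ x : Vt M, R ≤ rad M x → ∀ Z, 0 < mu M s Z x →
    ∃ a ∈ Z, a ∈ Init x.1 ∧ mu M s Z x ≤ nu M s a x + ε := by
  obtain ⟨R, h⟩ := s.j_top ⌈1 / ε⌉₊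
  refine ⟨R, fun x a Z b => ?_⟩
  obtain ⟨t, h1, h2, h3, -⟩ := exists_max (s.q_pos.1 b)
  refine ⟨t, h1, n_pos.1 h3, ?_⟩
  have k1 : (s.lam (ds M Z x) : ℝ) ≤ s.lam (n M t x) + 1 := by exact_mod_cast s.lam_five (by omega)
  have k2 := (Nat.le_ceil _).trans (Nat.cast_le.2 (h _ a))
  rw [div_le_iff₀ hε] at k2
  rw [mu, nu, Slow.q, Slow.q, div_le_iff₀ (s.j_pos _), add_mul, div_mul_cancel₀ _ (s.j_pos _).ne']
  linarith

variable (M) in
/-- the bounded neighbourhoods of the core are cocompact -/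
theorem cocpt (R : ℕ) : ∃ B : Set (Vt M), B.Finite ∧ ∀ x, rad M x ≤ R → ∃ f, ac M f x ∈ B := by
  obtain ⟨A, hA, h⟩ := M.finN
  refine ⟨⋃ t ∈ A, {y | dl M (1, t) y ≤ R}, hA.biUnion fun t _ => ball_fin _ _, fun x hx => ?_⟩
  obtain ⟨z, h1, h2⟩ := ds_le_iff.1 hx
  obtain ⟨f, hf⟩ := h z.2
  refine ⟨f, Set.mem_biUnion hf ?_⟩
  have : ac M f z = (1, f • z.2) := by rw [ac, inr_smul, mem_core.1 h1, _root_.map_one]
  show dl M _ _ ≤ R
  rw [← this, dl_ac]
  exact h2

end gen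

variable {ι I Tor K : Type}

/-- the node of a vertex of the cover -/
def nd (a : St ι I Tor) : Nd ι := ⟨a.v, a.k.elim (fun _ => none) fun t => some t.1⟩

theorem nd_smul (g : FreeGroup ι) (a : St ι I Tor) : nd (g • a) = g • nd a := rfl

theorem en_cp (v : FreeGroup ι) (a : V ι I Tor) : En (nd (cp v a)) v := by
  rcases a with a | ⟨j, t⟩
  · exact en_v _
  · exact (en_tgt (e := ⟨v, j⟩)).2 (.inl rfl)

theorem mem_supE {e : Ed ι} {a : St ι I Tor} : a ∈ supE e ↔ nd a = tgt e := by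
  refine ⟨by rintro ⟨t, rfl⟩; rfl, fun h => ?_⟩
  obtain ⟨v, a | ⟨i, t⟩⟩ := a
  · simpa [nd, tgt] using congrArg L.k h
  · obtain rfl : v = og e.v e.k := congrArg L.v h
    obtain rfl : i = e.k.1 := by simpa [nd, tgt] using congrArg L.k h
    exact ⟨t, rfl⟩

theorem supE_rev (e : Ed ι) : (supE (rev e) : Set (St ι I Tor)) = supE e := by
  ext; rw [mem_supE, mem_supE, tgt_rev]

variable [DecidableEq ι]

/-- the vertices strictly on the head side -/
def A (e : Ed ι) : Set (St ι I Tor) := {a | Hd e (nd a)}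

variable {e e' : Ed ι} {a b : St ι I Tor}

theorem mem_A : a ∈ A e ↔ Hd e (nd a) := Iff.rfl

theorem A_trich (e : Ed ι) (a : St ι I Tor) : a ∈ A e ∨ a ∈ A (rev e) ∨ a ∈ supE e := by
  rw [mem_supE]; exact trich e _

theorem A_not_rev (h : a ∈ A e) : a ∉ A (rev e) := Hd.not_rev h

theorem A_not_supE (h : a ∈ A e) : a ∉ supE e := fun k => not_Hd_tgt e (mem_supE.1 k ▸ h)

theorem Bey.A (h : Bey e e') (k : a ∉ A (rev e')) : a ∈ A e := h _ k

theorem smul_mem_A (g : FreeGroup ι) : g • a ∈ A (g • e) ↔ a ∈ A e := Hd_smul (t := nd a) g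

theorem cp_mem_A {v : FreeGroup ι} {a : V ι I Tor} (h : cp v a ∈ A e) : hs e v := h _ (en_cp v a)

theorem cp_nmem_A {v : FreeGroup ι} (h : hs e v) (a : V ι I Tor) : cp v a ∉ A (rev e) := not_Hd_rev (en_cp v a) h

variable (D : Dt ι I Tor K)

/-- the wall separates -/
theorem A_sep (h : D.Gt.Adj a b) (k : a ∈ A e) : b ∉ A (rev e) := by
  obtain ⟨v, a, b, -, rfl, rfl⟩ := h
  exact cp_nmem_A (cp_mem_A k) b

variable [Fintype ι] [Fintype I] [Fintype Tor] [DecidableEq I] [DecidableEq Tor]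

theorem image_A (g : FreeGroup ι) (e : Ed ι) : D.mir.ρ g '' A e = A (g • e) := by
  ext a
  obtain ⟨a, rfl⟩ := MulAction.surjective g a
  rw [smul_mem_A]
  exact (D.mir.ρ g).injective.mem_set_image

theorem ds_A_zero {x : Vt D.mir} (h : a ∈ Init x.1) (k : a ∈ A e) : ds D.mir (A (rev e)) x = 0 :=
  ds_eq_zero.2 fun b hb hb' => by
    by_cases c : a = b
    · exact A_not_rev k (c ▸ hb)
    · exact A_sep D (Init_clique x.1 h hb' c) k hb

variable [Nonempty I]

/-- a deepest wall -/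
def lb0 (x : Vt D.mir) : St ι I Tor :=
  if h : 0 < rad D.mir x then (exists_max h).choose else ⟨1, .inl (Classical.arbitrary I)⟩

/-- **the label**: an equivariant choice of a deepest wall -/
def lb (x : Vt D.mir) : St ι I Tor := x.2.v • lb0 D (ac D.mir x.2.v⁻¹ x)

variable {x y : Vt D.mir}

theorem lb_ac (f : FreeGroup ι) (x : Vt D.mir) : lb D (ac D.mir f x) = f • lb D x := by
  rw [lb, ac_snd, smul_v, mul_inv_rev, ac_mul, ac_inv, mul_smul, lb]

theorem lb_spec (h : 0 < rad D.mir x) : rad D.mir x ≤ 4 * n D.mir (lb D x) x ∧ 0 < n D.mir (lb D x) x ∧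
    ∀ b, n D.mir b x ≤ n D.mir (lb D x) x := by
  have k : 0 < rad D.mir (ac D.mir x.2.v⁻¹ x) := by rwa [rad_ac]
  obtain ⟨-, h1, h2, h3⟩ := (exists_max k).choose_spec
  have e : n D.mir (lb D x) x = n D.mir (exists_max k).choose (ac D.mir x.2.v⁻¹ x) := by
    have := n_ac x.2.v (exists_max k).choose (ac D.mir x.2.v⁻¹ x)
    rw [ac_inv'] at this
    rw [lb, lb0, dif_pos k]
    exact this
  rw [e]
  exact ⟨(rad_ac _ _).symm.trans_le h1, h2, fun b => (n_ac x.2.v⁻¹ b x).symm.trans_le (h3 _ trivial)⟩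

theorem lb_init (h : 0 < rad D.mir x) : lb D x ∈ Init x.1 := n_pos.1 (lb_spec D h).2.1

theorem lb_init' {d : ℕ} (h : dl D.mir x y ≤ d) (k : 4 * d < rad D.mir x) : lb D x ∈ Init y.1 := by
  have := (lb_spec D (x := x) (by omega)).1
  have := n_lip (lb D x) y x
  rw [dl_comm'] at this
  exact n_pos.1 (by omega)

/-- far out, labels of nearby vertices are adjacent or equal -/
theorem lb_adj {d : ℕ} (h : dl D.mir x y ≤ d) (k : 5 * d < rad D.mir x) (e : lb D x ≠ lb D y) :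
    D.Gt.Adj (lb D x) (lb D y) := by
  have := rad_lip y x
  rw [dl_comm'] at this
  exact Init_clique y.1 (lb_init' D h (by omega)) (lb_init D (by omega)) e

/-- the position in the tree -/
def pos (x : Vt D.mir) : Nd ι := if rad D.mir x = 0 then x.2 else nd (lb D x)

theorem pos_far (h : 0 < rad D.mir x) : pos D x = nd (lb D x) := if_neg h.ne'

theorem pos_ac (f : FreeGroup ι) (x : Vt D.mir) : pos D (ac D.mir f x) = f • pos D x := by
  unfold pos
  rw [rad_ac, lb_ac, ac_snd]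
  split_ifs <;> rfl

variable {c : ℕ → ℕ} (s : Slow c)

theorem nu_lb (C : ℝ) : ∃ R, ∀ x, R ≤ rad D.mir x → C ≤ nu D.mir s (lb D x) x := by
  obtain ⟨R, h⟩ := s.q_top C 4
  exact ⟨R + 1, fun x a => h _ (by omega) _ (lb_spec D (by omega)).1⟩


/-- the asymmetric cut function -/
def hq (e : Ed ι) (x : Vt D.mir) : ℝ :=
  if rad D.mir x = 0 then (if Hd e x.2 then 1 else 0) else min 1 (mu D.mir s (A e) x)

omit [Nonempty I] in
theorem hq_mem (e : Ed ι) (x : Vt D.mir) : 0 ≤ hq D s e x ∧ hq D s e x ≤ 1 := by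
  unfold hq
  split_ifs
  exacts [⟨zero_le_one, le_rfl⟩, ⟨le_rfl, zero_le_one⟩, ⟨le_min zero_le_one (mu_nn s _ _), min_le_left _ _⟩]

theorem hq_one (h : Hd e (pos D x)) : hq D s e x = 1 := by
  unfold pos at h
  unfold hq
  split_ifs at h with a
  · rw [if_pos a, if_pos h]
  · have := lb_spec D (Nat.pos_of_ne_zero a)
    have := n_le_ds (Z := A e) h x
    rw [if_neg a]
    exact min_eq_left (s.one_le_q (by omega) (by omega))

theorem hq_zero (h : Hd (rev e) (pos D x)) : hq D s e x = 0 := by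
  unfold pos at h
  unfold hq
  split_ifs at h with a
  · rw [if_pos a, if_neg fun b : Hd e x.2 => b.not_rev h]
  · have := ds_A_zero D (lb_init D (Nat.pos_of_ne_zero a)) h
    rw [rev_rev] at this
    rw [if_neg a, mu, this, s.q_zero, min_eq_right zero_le_one]

omit [Nonempty I] in
theorem hq_ac (f : FreeGroup ι) (e : Ed ι) (x : Vt D.mir) : hq D s (f • e) (ac D.mir f x) = hq D s e x := by
  unfold hq
  rw [rad_ac, ac_snd, Hd_smul, ← image_A, mu_ac]

/-- **the cut functions** -/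
def cut : Cut ι (Vt D.mir) where
  pos := pos D
  h e x := if e.k.2 then hq D s e x else 1 - hq D s (rev e) x
  nn e x := by
    split_ifs
    exacts [(hq_mem D s _ _).1, sub_nonneg.2 (hq_mem D s _ _).2]
  h_rev e x := by cases h : e.k.2 <;> simp [op, h]
  one e x h := by
    split_ifs
    · exact hq_one D s h
    · rw [hq_zero D s (by rwa [rev_rev]), sub_zero]

theorem cut_pos : (cut D s).pos = pos D := rfl

theorem h_true (h : e.k.2 = true) (k : 0 < rad D.mir x) : (cut D s).h e x = min 1 (mu D.mir s (A e) x) :=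
  (if_pos h).trans (if_neg k.ne')

theorem h_false (h : e.k.2 = false) (k : 0 < rad D.mir x) :
    (cut D s).h e x = 1 - min 1 (mu D.mir s (A (rev e)) x) :=
  (if_neg (by simp [h])).trans (congrArg _ (if_neg k.ne'))

theorem h_ac (f : FreeGroup ι) (e : Ed ι) (x : Vt D.mir) : (cut D s).h (f • e) (ac D.mir f x) = (cut D s).h e x := by
  simp only [cut, smul_k, rev_smul, hq_ac]

theorem H_ac (f : FreeGroup ι) (e : Ed ι) (x : Vt D.mir) : (cut D s).H (f • e) (ac D.mir f x) = (cut D s).H e x :=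
  (cut D s).H_smul f (fun e => h_ac D s f e x) e

theorem h_slow {ε : ℝ} (hε : 0 < ε) (d : ℕ) : ∃ R, ∀ x y, R ≤ rad D.mir x → dl D.mir x y ≤ d → ∀ e,
    |(cut D s).h e x - (cut D s).h e y| ≤ ε := by
  obtain ⟨R, h⟩ := min_mu_slow D.mir s 1 hε d
  refine ⟨R + d + 1, fun x y a b e => ?_⟩
  have := rad_lip y x
  rw [dl_comm'] at this
  cases k : e.k.2
  · rw [h_false D s k (by omega), h_false D s k (by omega), sub_sub_sub_cancel_left, abs_sub_comm]
    exact h x y (by omega) b _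
  · rw [h_true D s k (by omega), h_true D s k (by omega)]
    exact h x y (by omega) b _

/-- **slow variation of the levels** -/
theorem H_slow {ε : ℝ} (hε : 0 < ε) (d : ℕ) : ∃ R, ∀ x y, R ≤ rad D.mir x → dl D.mir x y ≤ d → ∀ e,
    |(cut D s).H e x - (cut D s).H e y| ≤ ε := by
  obtain ⟨R, h⟩ := h_slow D s (ε := min (ε / 9) (1 / 2)) (by positivity) d
  refine ⟨R, fun x y a b e => ((cut D s).H_slow ((min_le_right _ _).trans_lt (by norm_num)) (h x y a b) e).trans ?_⟩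
  linarith [min_le_left (ε / 9) (1 / 2)]

/-- the levels are uniformly coarsely Lipschitz -/
theorem H_lip (d : ℕ) : ∃ C : ℕ, ∀ x y, dl D.mir x y ≤ d → ∀ e, |(cut D s).H e x - (cut D s).H e y| ≤ C := by
  obtain ⟨R, h⟩ := H_slow D s one_pos d
  obtain ⟨B, hB, k⟩ := cocpt D.mir R
  obtain ⟨N, hN⟩ := ((hB.biUnion fun b _ => (ball_fin b d).image fun y =>
    {e | (cut D s).h e b ≠ (cut D s).h e y}.ncard)).bddAbove
  refine ⟨1 + 2 * N, fun x y a e => ?_⟩
  push_cast
  rcases le_total R (rad D.mir x) with b | b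
  · exact (h x y b a e).trans (le_add_of_nonneg_right (by positivity))
  · obtain ⟨f, hf⟩ := k x b
    rw [← H_ac D s f e x, ← H_ac D s f e y]
    refine ((cut D s).H_sub (fun e => (cut D s).h_sub e _ _) _).trans ?_
    have : ({e | (cut D s).h e (ac D.mir f x) ≠ (cut D s).h e (ac D.mir f y)}.ncard : ℝ) ≤ N :=
      Nat.cast_le.2 (hN (Set.mem_biUnion hf ⟨ac D.mir f y, (dl_ac f x y).trans_le a, rfl⟩))
    linarith

theorem one_le_H (h : 0 < rad D.mir x) (k : lb D x ∈ A e) : 1 ≤ (cut D s).H e x :=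
  (cut D s).one_le_H (by rwa [cut_pos, pos_far D h])


theorem pos_finite (R N : ℕ) (r : FreeGroup ι) : {x | rad D.mir x ≤ R ∧ d r (pos D x).v ≤ N}.Finite := by
  obtain ⟨B, hB, k⟩ := cocpt D.mir R
  refine (hB.biUnion fun b _ => (ball_finite r N).image fun u => ac D.mir (u * (pos D b).v⁻¹) b).subset
    fun x hx => ?_
  obtain ⟨f, hf⟩ := k x hx.1
  refine Set.mem_biUnion hf ⟨_, hx.2, ?_⟩
  simp only [pos_ac, smul_v, mul_inv_rev, mul_inv_cancel_left, ac_inv]

/-- **(L4) on vertices** -/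
theorem out_fin (R N C : ℕ) (r : FreeGroup ι) :
    {x | rad D.mir x ≤ R ∧ ∀ e, Out r N e → (cut D s).H e x ≤ C}.Finite :=
  (pos_finite D R _ r).subset fun _ h => ⟨h.1, (cut D s).d_le h.2⟩


end Crest.Agent.N255.Lv
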