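import Crest.Agent.N255.Lv.Pt
import Crest.Agent.N255.Uc.Av
import Crest.Agent.N255.Ce.Res

/-!
# Row 255 (helper32): the slow level functions on the manifold
-/

set_option autoImplicit false

noncomputable section

namespace Crest.Agent.N255.Lv

open FreeGroup Pt Fa Ra Uc Set

section gen

variable {S K F Nd Ed : Type} [DecidableEq S] [Group F] [MulAction F Nd] [MulAction F Ed] [LinearOrder K]
  {M : Ce.Mir S K F Nd Ed} {G : Subgroup M.G} {F' : Subgroup F} {T : Type} [TopologicalSpace T] [MulAction G T]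
  [MulAction F' T]

/-- the orbit map -/
def ob (o : Vt M) (g : G) : Vt M := g.1.1 • o

theorem ob_mul (o : Vt M) (g h : G) : ob o (g * h) = g.1.1 • ob o h := mul_smul _ _ _

theorem dl_ob (o : Vt M) (k g h : G) : dl M (ob o (k * g)) (ob o (k * h)) = dl M (ob o g) (ob o h) := by
  rw [ob_mul, ob_mul, dl_smul]

omit [LinearOrder K] in
theorem len_le_rad (x : Vt M) : len x.1 ≤ rad M x := by
  have key : ∀ (z : Vt M) k y, dl M z y = k → len y.1 ≤ len z.1 + k := fun z k => by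
    induction k with
    | zero => exact fun y h => by rw [eq_of_dl h]; rfl
    | succ k ih =>
      intro y h
      obtain ⟨b, u, h1, h2⟩ := dl_step h
      have := ih u h2
      rcases b with a | e
      · have e : y.1 = u.1 * gen M.Γ a := by rw [h1.2, mul_gen_gen]
        have := len_mul_le u.1 (gen M.Γ a)
        rw [len_gen, ← e] at this
        omega
      · rw [h1.1] at this; omega
  obtain ⟨z, h1, h2⟩ := exists_dl univ x
  have := key z _ x h2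
  rwa [mem_core.1 h1, len_one, zero_add] at this

omit [DecidableEq S] in
theorem exists_init {Γ : SimpleGraph S} (h : ∀ a, ∃ b, a ≠ b ∧ ¬Γ.Adj a b) (k : ℕ) :
    ∀ a, ∃ w : W Γ, In w = {a} ∧ k ≤ len w := by
  induction k with
  | zero => exact fun a => ⟨_, In_gen a, Nat.zero_le _⟩
  | succ k ih =>
    intro a
    obtain ⟨b, h1, h2⟩ := h a
    obtain ⟨w, h3, h4⟩ := ih b
    have n : a ∉ In w := by rwa [h3]
    refine ⟨w * gen Γ a, ?_, by rw [len_nmem n]; omega⟩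
    rw [In_mul_of_nmem n, h3]
    ext t
    simp only [mem_insert_iff, mem_singleton_iff, mem_ofPred_eq, or_iff_left_iff_imp]
    exact fun ht => absurd (ht.1 ▸ ht.2) h2

/-- uniformly slowly varying families -/
def SV {J : Type} (Φ : J → Vt M → ℝ) : Prop :=
  ∀ ε > 0, ∀ d, ∃ R, ∀ x y, R ≤ rad M x → dl M x y ≤ d → ∀ i, |Φ i x - Φ i y| ≤ ε

variable (G) in
/-- two points in one translate of `K'` -/
def Nr (K' : Set T) (x y : T) : Prop := ∃ h : G, h⁻¹ • x ∈ K' ∧ h⁻¹ • y ∈ K'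

omit [TopologicalSpace T] in
theorem Nr.symm {K' : Set T} {x y : T} (h : Nr G K' x y) : Nr G K' y x := h.imp fun _ => And.symm

omit [TopologicalSpace T] in
theorem Nr.left {K' : Set T} {x y : T} (h : Nr G K' x y) : Nr G K' x x := h.imp fun _ a => ⟨a.1, a.1⟩

theorem nr_cvr {K' U : Set T} (h : U ∈ Gs.FD.cvr G K') {x y : T} (hx : x ∈ U) (hy : y ∈ U) : Nr G K' x y := by
  obtain ⟨g, rfl⟩ := h
  obtain ⟨_, rfl, a⟩ := hx
  obtain ⟨_, rfl, b⟩ := hy
  exact ⟨_, interior_subset a, interior_subset b⟩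

variable (G F' T) in
/-- a partition of unity, a base vertex and an `F`-equivariant choice of labels -/
structure Av where
  P : Pu G T
  o : Vt M
  φ : F' →* G
  φ_val : ∀ f, (φ f).1.1 = SemidirectProduct.inr f.1
  act : ∀ (f : F') (x : T), f • x = φ f • x
  g : T → G
  mem : ∀ x, g x ∈ P.lab x
  eqv : ∀ (f : F') x, g (f • x) = φ f * g x

theorem exists_av (P : Pu G T) (o : Vt M) (φ : F' →* G) (hφ : ∀ f, (φ f).1.1 = SemidirectProduct.inr f.1)
    (act : ∀ (f : F') (x : T), f • x = φ f • x) (hf : ∀ (g : G) (x : T), g • x = x → g = 1) :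
    ∃ E : Av G F' T, E.P = P ∧ E.o = o ∧ E.φ = φ := by
  let r := MulAction.orbitRel F' T
  have ex : ∀ x, ∃ f : F', f • (Quotient.mk r x).out = x := fun x => r.symm (Quotient.mk_out (s := r) x)
  choose ψ hψ using ex
  choose g hg using P.lab_nonempty
  refine ⟨⟨P, o, φ, hφ, act, fun x => φ (ψ x) * g (Quotient.mk r x).out, fun x => ?_, fun f x => ?_⟩, rfl, rfl, rfl⟩
  · have := (P.mem_lab_smul (φ (ψ x)) _ _).2 (hg (Quotient.mk r x).out)
    rwa [← act, hψ] at this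
  · have e : Quotient.mk r (f • x) = Quotient.mk r x := Quotient.sound (s := r) ⟨f, rfl⟩
    have a := hψ (f • x)
    rw [e] at a ⊢
    have b := hf ((φ f * φ (ψ x))⁻¹ * φ (ψ (f • x))) (Quotient.mk r x).out
      (by rw [mul_smul, ← act, a, inv_smul_eq_iff, mul_smul, ← act, ← act, hψ])
    rw [← inv_mul_eq_one.1 b, mul_assoc]

namespace Av

variable (E : Av G F' T) {x y : T} {K' : Set T}

/-- the average of a function on vertices -/
def av (φ : Vt M → ℝ) : C(T, ℝ) := E.P.av fun g => φ (ob E.o g)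

/-- the vertices over which the average is taken -/
def Vs (x : T) : Set (Vt M) := ob E.o '' E.P.lab x

/-- the chosen vertex -/
def v (x : T) : Vt M := ob E.o (E.g x)

/-- the distance to the core -/
def rr : C(T, ℝ) := E.av fun v => rad M v

theorem v_mem (x : T) : E.v x ∈ E.Vs x := ⟨_, E.mem x, rfl⟩

theorem ob_φ (f : F') (g : G) : ob E.o (E.φ f * g) = ac M f.1 (ob E.o g) := by rw [ob_mul, E.φ_val, ac]

theorem v_smul (f : F') (x : T) : E.v (f • x) = ac M f.1 (E.v x) := by rw [v, E.eqv, ob_φ, v]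

theorem nr_self (x : T) : Nr G E.P.K x x := ⟨E.g x, E.mem x, E.mem x⟩

theorem av_smul {φ φ' : Vt M → ℝ} {f : F'} (h : ∀ v, φ' (ac M f.1 v) = φ v) (x : T) :
    E.av φ' (f • x) = E.av φ x :=
  E.act f x ▸ E.P.av_act' (fun g => by rw [ob_φ, h]) x

theorem rr_smul (f : F') (x : T) : E.rr (f • x) = E.rr x := E.av_smul (fun v => by rw [rad_ac]) x

variable {φ φ' : Vt M → ℝ} {a : ℝ}

theorem av_mono (h : ∀ v ∈ E.Vs x, φ v ≤ φ' v) : E.av φ x ≤ E.av φ' x :=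
  E.P.av_mono fun g k => h _ ⟨g, k, rfl⟩
theorem av_le (h : ∀ v ∈ E.Vs x, φ v ≤ a) : E.av φ x ≤ a := E.P.av_le fun g k => h _ ⟨g, k, rfl⟩
theorem lt_av (h : ∀ v ∈ E.Vs x, a < φ v) : a < E.av φ x := E.P.lt_av fun g k => h _ ⟨g, k, rfl⟩
theorem av_lt (h : ∀ v ∈ E.Vs x, φ v < a) : E.av φ x < a := E.P.av_lt fun g k => h _ ⟨g, k, rfl⟩
theorem exists_lt (h : a < E.av φ x) : ∃ v ∈ E.Vs x, a < φ v :=
  let ⟨g, h1, h2⟩ := E.P.exists_lt h; ⟨_, ⟨g, h1, rfl⟩, h2⟩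
theorem exists_gt (h : E.av φ x < a) : ∃ v ∈ E.Vs x, φ v < a :=
  let ⟨g, h1, h2⟩ := E.P.exists_gt h; ⟨_, ⟨g, h1, rfl⟩, h2⟩
theorem abs_av_sub {c : ℝ} (h : ∀ v ∈ E.Vs x, |φ v - a| ≤ c) : |E.av φ x - a| ≤ c :=
  E.P.abs_av_sub fun g k => h _ ⟨g, k, rfl⟩


theorem near (hK : IsCompact K') :
    ∃ d, ∀ x y, Nr G K' x y → ∀ u ∈ E.Vs x, ∀ w ∈ E.Vs y, dl M u w ≤ d := by
  have f := E.P.lf.finite_nonempty_inter_compact hK
  obtain ⟨d, hd⟩ := (f.image2 (fun g h => dl M (ob E.o g) (ob E.o h)) f).bddAbove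
  refine ⟨d, ?_⟩
  rintro x y ⟨h, h1, h2⟩ _ ⟨g, a, rfl⟩ _ ⟨g', a', rfl⟩
  rw [← dl_ob E.o h⁻¹]
  exact hd ⟨_, ⟨_, (E.P.mem_lab_smul h⁻¹ g x).2 a, h1⟩, _, ⟨_, (E.P.mem_lab_smul h⁻¹ g' y).2 a', h2⟩, rfl⟩

theorem near0 : ∃ d, ∀ x, ∀ u ∈ E.Vs x, ∀ w ∈ E.Vs x, dl M u w ≤ d :=
  (E.near E.P.cpt).imp fun _ h x => h x x (E.nr_self x)

theorem rr_near (hK : IsCompact K') :
    ∃ d : ℕ, ∀ x y, Nr G K' x y → ∀ w ∈ E.Vs y, |E.rr x - rad M w| ≤ d := by
  refine (E.near hK).imp fun d h x y a w b => E.abs_av_sub fun u c => ?_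
  have h1 := h x y a u c w b
  have h2 := rad_lip u w
  have h3 := rad_lip w u
  rw [dl_comm'] at h3
  have h4 : (rad M w : ℝ) ≤ rad M u + d := by exact_mod_cast (by omega)
  have h5 : (rad M u : ℝ) ≤ rad M w + d := by exact_mod_cast (by omega)
  exact abs_le.2 ⟨by linarith, by linarith⟩

theorem far (hK : IsCompact K') (R : ℕ) :
    ∃ R' : ℝ, ∀ x y, R' < E.rr x → Nr G K' x y → ∀ w ∈ E.Vs y, R ≤ rad M w := by
  obtain ⟨d, h⟩ := E.rr_near hK
  refine ⟨R + d, fun x y a b w c => ?_⟩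
  have := (abs_le.1 (h x y b w c)).2
  exact_mod_cast (show (R : ℝ) ≤ rad M w by linarith)

/-- **averages of slowly varying functions** -/
theorem sv {J : Type} {Φ : J → Vt M → ℝ} (h : SV Φ) (hK : IsCompact K') {ε : ℝ} (hε : 0 < ε) :
    ∃ R : ℝ, ∀ x y, R < E.rr x → Nr G K' x y → ∀ w ∈ E.Vs y, ∀ i, |E.av (Φ i) x - Φ i w| ≤ ε := by
  obtain ⟨d, h1⟩ := E.near hK
  obtain ⟨R, h2⟩ := h ε hε d
  obtain ⟨R', h3⟩ := E.far hK R
  refine ⟨R', fun x y a b w c i => E.abs_av_sub fun u e => ?_⟩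
  rw [abs_sub_comm]
  exact h2 w u (h3 x y a b w c) (h1 y x b.symm w c u e) i

theorem sv0 {J : Type} {Φ : J → Vt M → ℝ} (h : SV Φ) {ε : ℝ} (hε : 0 < ε) :
    ∃ R : ℝ, ∀ x, R < E.rr x → ∀ w ∈ E.Vs x, ∀ i, |E.av (Φ i) x - Φ i w| ≤ ε :=
  (E.sv h E.P.cpt hε).imp fun _ k x a => k x x a (E.nr_self x)

theorem sv2 {J : Type} {Φ : J → Vt M → ℝ} (h : SV Φ) (hK : IsCompact K') {ε : ℝ} (hε : 0 < ε) :
    ∃ R : ℝ, ∀ x y, R < E.rr x → Nr G K' x y → ∀ i, |E.av (Φ i) x - E.av (Φ i) y| ≤ ε := by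
  refine (E.sv h hK hε).imp fun R k x y a b i => ?_
  rw [abs_sub_comm]
  exact E.abs_av_sub fun w c => (abs_sub_comm _ _).trans_le (k x y a b w c i)

theorem isCompact_of [Finite K] [T2Space T] {B : Set (Vt M)} (hB : B.Finite) {Q : Set T} (hQ : IsClosed Q)
    (h : ∀ x ∈ Q, E.v x ∈ B) : IsCompact Q :=
  ((orb_fin G E.o hB).isCompact_biUnion fun g _ => E.P.cpt.image (E.P.act g)).of_isClosed_subset hQ
    fun x hx => mem_biUnion (h x hx) ⟨_, E.mem x, smul_inv_smul _ _⟩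

variable {c : ℕ → ℕ} (s : Slow c)

/-- the slow distance to a quadrant -/
def mu (Z : Set S) : C(T, ℝ) := E.av (Lv.mu M s Z)

/-- the slow depth -/
def nu (a : S) : C(T, ℝ) := E.av (Lv.nu M s a)

theorem nu_eq (a : S) : E.nu s a = E.mu s {a} := rfl




theorem mu_mono {Z Z' : Set S} (h : Z ⊆ Z') (x : T) : E.mu s Z x ≤ E.mu s Z' x :=
  E.av_mono fun v _ => Lv.mu_mono s h v

/-- **the average against the values at nearby vertices** -/
theorem mu_near (hK : IsCompact K') (C : ℝ) {ε : ℝ} (hε : 0 < ε) : ∃ R : ℝ, ∀ x y, R < E.rr x → Nr G K' x y →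
    ∀ w ∈ E.Vs y, ∀ Z, (E.mu s Z x ≤ C → Lv.mu M s Z w ≤ E.mu s Z x + ε) ∧
      (Lv.mu M s Z w ≤ C → E.mu s Z x ≤ Lv.mu M s Z w + ε) := by
  obtain ⟨d, h1⟩ := E.near hK
  obtain ⟨R, h2⟩ := mu_slow M s (C + ε) (half_pos hε) d
  obtain ⟨R', h3⟩ := E.far hK R
  refine ⟨R', fun x y a b w k Z => ⟨fun e => ?_, fun e => E.av_le fun u n => ?_⟩⟩
  · obtain ⟨u, u1, u2⟩ := E.exists_gt (show E.mu s Z x < E.mu s Z x + ε / 2 by linarith)
    have := (h2 w u (h3 x y a b w k) (h1 y x b.symm w k u u1) Z).2 (by linarith)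
    linarith
  · have := (h2 w u (h3 x y a b w k) (h1 y x b.symm w k u n) Z).1 (by linarith)
    linarith

theorem mu_near0 (C : ℝ) {ε : ℝ} (hε : 0 < ε) : ∃ R : ℝ, ∀ x, R < E.rr x →
    ∀ w ∈ E.Vs x, ∀ Z, (E.mu s Z x ≤ C → Lv.mu M s Z w ≤ E.mu s Z x + ε) ∧
      (Lv.mu M s Z w ≤ C → E.mu s Z x ≤ Lv.mu M s Z w + ε) :=
  (E.mu_near s E.P.cpt C hε).imp fun _ h x a => h x x a (E.nr_self x)

/-- slow variation of `mu` and `nu` -/
theorem mu_slow (hK : IsCompact K') (C : ℝ) {ε : ℝ} (hε : 0 < ε) : ∃ R : ℝ, ∀ x y, R < E.rr x → Nr G K' x y →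
    ∀ Z, E.mu s Z x ≤ C → E.mu s Z y ≤ E.mu s Z x + ε :=
  (E.mu_near s hK C hε).imp fun _ h x y a b Z k => E.av_le fun w n => (h x y a b w n Z).1 k

theorem nu_init (hK : IsCompact K') {ε : ℝ} (hε : 0 < ε) : ∃ R : ℝ, ∀ x y, R < E.rr x → Nr G K' x y →
    ∀ w ∈ E.Vs y, ∀ a, ε < E.nu s a x → a ∈ Init w.1 := by
  refine (E.mu_near s hK 0 hε).imp fun R h x y a b w c t e => (nu_pos s).1 (not_le.1 fun k => ?_)
  have := (h x y a b w c {t}).2 k
  rw [nu_eq] at e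
  rw [Lv.nu_eq] at k
  linarith

/-- far out, deep walls are adjacent -/
theorem adj (hK : IsCompact K') {ε : ℝ} (hε : 0 < ε) : ∃ R : ℝ, ∀ x y, R < E.rr x → R < E.rr y → Nr G K' x y →
    ∀ a b, ε < E.nu s a x → ε < E.nu s b y → a ≠ b → M.Γ.Adj a b := by
  obtain ⟨R, h⟩ := E.nu_init s hK hε
  exact ⟨R, fun x y h1 h2 k a b k1 k2 =>
    Init_clique (E.v y).1 (h x y h1 k _ (E.v_mem y) a k1) (h y y h2 k.symm.left _ (E.v_mem y) b k2)⟩

theorem adj0 {ε : ℝ} (hε : 0 < ε) : ∃ R : ℝ, ∀ x, R < E.rr x →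
    ∀ a b, ε < E.nu s a x → ε < E.nu s b x → a ≠ b → M.Γ.Adj a b :=
  (E.adj s E.P.cpt hε).imp fun _ h x a => h x x a a (E.nr_self x)

/-- `mu Z` is almost the maximum of the `nu a` -/
theorem mu_le_nu (C : ℝ) {ε : ℝ} (hε : 0 < ε) : ∃ R : ℝ, ∀ x, R < E.rr x → ∀ Z, ε < E.mu s Z x →
    ∃ a ∈ Z, min C (E.mu s Z x) < E.nu s a x + ε := by
  obtain ⟨R1, h1⟩ := E.mu_near0 s (max C 0 + ε) (ε := ε / 4) (by positivity)
  obtain ⟨R2, h2⟩ := Lv.mu_le_nu M s (ε := ε / 4) (by positivity)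
  obtain ⟨R3, h3⟩ := E.far E.P.cpt R2
  refine ⟨max R1 R3, fun x a Z b => ?_⟩
  have k := h1 x ((le_max_left _ _).trans_lt a) _ (E.v_mem x)
  have c0 := le_max_right C 0
  have c1 := le_max_left C 0
  obtain ⟨t, t1, -, t2⟩ := h2 _ (h3 x x ((le_max_right _ _).trans_lt a) (E.nr_self x) _ (E.v_mem x)) Z
    (not_le.1 fun n => by linarith [(k Z).2 (by linarith)])
  refine ⟨t, t1, not_le.1 fun n => ?_⟩
  rw [le_min_iff, nu_eq] at n
  rw [Lv.nu_eq] at t2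
  have k1 := (k {t}).1 (by linarith)
  have k2 := (k Z).2 (by linarith)
  linarith

/-- points deep behind one wall only -/
theorem ne [Finite K] [G.FiniteIndex] [Nonempty T] (h : ∀ a, ∃ b, a ≠ b ∧ ¬M.Γ.Adj a b) (a : S) (C R : ℝ) {ε : ℝ}
    (hε : 0 < ε) : ∃ x, R < E.rr x ∧ C < E.nu s a x ∧ ∀ b, b ≠ a → E.nu s b x < ε := by
  obtain ⟨d, h1⟩ := orb_dense G E.o
  obtain ⟨d0, h2⟩ := E.near0
  obtain ⟨R1, h3⟩ := Lv.mu_slow M s C (ε := min (ε / 2) 1) (by positivity) (d + d0)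
  obtain ⟨R2, h4⟩ := Lv.mu_slow M s 0 (half_pos hε) (d + d0)
  obtain ⟨R3, h5⟩ := s.q_top (C + 2) 4
  obtain ⟨w, w1, w2⟩ := exists_init h (R1 + R2 + R3 + ⌈R⌉₊ + d + d0 + 1) a
  let v : Vt M := (w⁻¹, E.o.2)
  have v1 : Init v.1 = {a} := by rw [← In_eq, w1]
  have v2 := len_le_rad v
  rw [len_inv] at v2
  obtain ⟨g, hg⟩ := h1 v
  obtain ⟨x0⟩ := ‹Nonempty T›
  have m : g ∈ E.P.lab (g • (E.g x0)⁻¹ • x0) := by simpa [Pu.lab] using E.mem x0
  have k : ∀ u ∈ E.Vs (g • (E.g x0)⁻¹ • x0), dl M v u ≤ d + d0 := fun u b =>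
    (dl_tri' v (ob E.o g) u).trans (add_le_add ((dl_comm' _ _).trans_le hg) (h2 _ _ ⟨g, m, rfl⟩ u b))
  refine ⟨g • (E.g x0)⁻¹ • x0, E.lt_av fun u b => (Nat.le_ceil R).trans_lt (Nat.cast_lt.2 ?_),
    E.lt_av fun u b => not_le.1 fun n => ?_, fun b n => E.av_lt fun u e => ?_⟩
  · have := rad_lip u v
    rw [dl_comm'] at this
    have := k u b
    omega
  · have a1 := (h3 v u (by omega) (k u b) {a}).2 n
    have a2 : C + 2 ≤ Lv.mu M s {a} v := h5 _ (by omega) _ (ds_le_of fun t _ ht => by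
      rw [v1] at ht; rw [ht]; rfl)
    rw [Lv.nu_eq] at n
    linarith [min_le_right (ε / 2) 1]
  · have a1 : Lv.mu M s {b} v ≤ 0 := not_lt.1 fun p => n (by simpa [v1] using (nu_pos (M := M) s).1 p)
    have := (h4 v u (by omega) (k u e) {b}).1 a1
    rw [Lv.nu_eq]
    linarith

end Av

end gen

namespace Av

variable {ι I Tor K : Type} [DecidableEq ι] [Fintype ι] [Fintype I] [Fintype Tor] [DecidableEq I] [DecidableEq Tor]
  [Nonempty I] [LinearOrder K] {D : Dt ι I Tor K} {G : Subgroup D.mir.G} {F' : Subgroup (FreeGroup ι)} {T : Type}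
  [TopologicalSpace T] [MulAction G T] [MulAction F' T]
  (E : Av G F' T) {c : ℕ → ℕ} (s : Slow c) {e e' : Ed ι} {x y : T} {K' : Set T}

/-- **the end label** -/
def lab (x : T) : St ι I Tor := lb D (E.v x)

/-- the averaged cut function -/
def hT (e : Ed ι) : C(T, ℝ) := E.av ((cut D s).h e)

/-- **the level function** -/
def sT (e : Ed ι) : C(T, ℝ) := E.av ((cut D s).H e)

theorem lab_smul (f : F') (x : T) : E.lab (f • x) = f.1 • E.lab x := by
  rw [lab, v_smul, lb_ac, lab]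

theorem sT_smul (f : F') (e : Ed ι) (x : T) : E.sT s (f.1 • e) (f • x) = E.sT s e x :=
  E.av_smul (H_ac D s f.1 e) x


theorem sT_rev (e : Ed ι) (x : T) : E.sT s (rev e) x = 1 - E.sT s e x := by
  simp only [sT, av, Cut.H_rev]; exact E.P.av_one_sub _ x


theorem sT_bey (h : Bey e e') (x : T) : E.sT s e' x + 1 ≤ E.sT s e x :=
  E.P.av_nest (fun _ => (cut D s).H_bey h _) x



omit [LinearOrder K] in
theorem sv_H : SV (cut D s).H := fun _ hε d => H_slow D s hε d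

omit [LinearOrder K] in
theorem sv_h : SV (cut D s).h := fun _ hε d => h_slow D s hε d

/-- far out `hT` is almost the clamped level -/
theorem clamp {ε : ℝ} (hε : 0 < ε) : ∃ R : ℝ, ∀ x, R < E.rr x → ∀ e,
    |max 0 (min 1 (E.sT s e x)) - E.hT s e x| ≤ ε := by
  obtain ⟨R1, h1⟩ := E.sv0 (sv_H s) (half_pos hε)
  obtain ⟨R2, h2⟩ := E.sv0 (sv_h s) (half_pos hε)
  refine ⟨max R1 R2, fun x a e => ?_⟩
  have k1 := h1 x ((le_max_left _ _).trans_lt a) _ (E.v_mem x) e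
  have k2 := h2 x ((le_max_right _ _).trans_lt a) _ (E.v_mem x) e
  rw [← (cut D s).clamp, abs_sub_comm] at k2
  have k3 : |max 0 (min 1 (E.sT s e x)) - max 0 (min 1 ((cut D s).H e (E.v x)))| ≤ ε / 2 := by
    refine (abs_max_sub_max_le_max _ _ _ _).trans (max_le (by simpa using (half_pos hε).le) ?_)
    exact (abs_min_sub_min_le_max _ _ _ _).trans (max_le (by simpa using (half_pos hε).le) k1)
  exact (abs_sub_le _ _ _).trans ((add_le_add k3 k2).trans_eq (add_halves ε))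

/-- **(L0)** labels of nearby far points are adjacent or equal -/
theorem lab_adj (hK : IsCompact K') : ∃ R : ℝ, ∀ x y, R < E.rr x → Nr G K' x y → E.lab x ≠ E.lab y →
    D.Gt.Adj (E.lab x) (E.lab y) := by
  obtain ⟨d, h1⟩ := E.near hK
  obtain ⟨R, h2⟩ := E.far hK (5 * d + 1)
  exact ⟨R, fun x y a b => lb_adj D (h1 x y b _ (E.v_mem x) _ (E.v_mem y)) (h2 x x a b.left _ (E.v_mem x))⟩


/-- **(L0)** labels and sides -/
theorem lab_side (hK : IsCompact K') {ε : ℝ} (hε : 0 < ε) : ∃ R : ℝ, ∀ x y, R < E.rr x → Nr G K' x y → ∀ e,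
    E.sT s e x < 1 - ε → E.lab y ∉ A e := by
  obtain ⟨R1, h1⟩ := E.sv (sv_H s) hK hε
  obtain ⟨R2, h2⟩ := E.far hK 1
  refine ⟨max R1 R2, fun x y a b e k n => ?_⟩
  have k1 := (abs_le.1 (h1 x y ((le_max_left _ _).trans_lt a) b _ (E.v_mem y) e)).1
  have k2 := one_le_H D s (h2 x y ((le_max_right _ _).trans_lt a) b _ (E.v_mem y)) n
  rw [sT] at k
  linarith

theorem lab_side0 {ε : ℝ} (hε : 0 < ε) : ∃ R : ℝ, ∀ x, R < E.rr x → ∀ e,
    (E.sT s e x < 1 - ε → E.lab x ∉ A e) ∧ (ε < E.sT s e x → E.lab x ∉ A (rev e)) :=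
  (E.lab_side s E.P.cpt hε).imp fun _ h x a e => ⟨h x x a (E.nr_self x) e, fun k =>
    h x x a (E.nr_self x) _ (by rw [sT_rev]; linarith)⟩

theorem lab_T : ∃ R : ℝ, ∀ x, R < E.rr x → ∀ e, E.lab x ∈ supE e → |E.sT s e x| ≤ 2 := by
  obtain ⟨R1, h1⟩ := E.sv0 (sv_H s) one_pos
  obtain ⟨R2, h2⟩ := E.far E.P.cpt 1
  refine ⟨max R1 R2, fun x a e k => ?_⟩
  have k1 := abs_le.1 (h1 x ((le_max_left _ _).trans_lt a) _ (E.v_mem x) e)
  rw [(cut D s).H_tgt ((pos_far D (h2 x x ((le_max_right _ _).trans_lt a) (E.nr_self x) _ (E.v_mem x))).trans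
    (mem_supE.1 k))] at k1
  rw [sT, abs_le]
  constructor <;> linarith [k1.1, k1.2, (cut D s).nn e (E.v x), (cut D s).le_one e (E.v x)]

/-- the label is deep -/
theorem nu_lab (hK : IsCompact K') (C : ℝ) : ∃ R : ℝ, ∀ x y, R < E.rr x → R < E.rr y → Nr G K' x y →
    C < E.nu s (E.lab x) y := by
  obtain ⟨R1, h1⟩ := nu_lb D s (C + 2)
  obtain ⟨R2, h2⟩ := E.mu_near s hK C one_pos
  obtain ⟨R3, h3⟩ := E.far hK R1
  refine ⟨max R2 R3, fun x y a a' b => not_le.1 fun n => ?_⟩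
  have k1 := h1 _ (h3 x x ((le_max_right _ _).trans_lt a) b.left _ (E.v_mem x))
  have k2 := (h2 y x ((le_max_left _ _).trans_lt a') b.symm _ (E.v_mem x) {E.lab x}).1 n
  rw [nu_eq] at n
  rw [Lv.nu_eq] at k1
  rw [lab] at n k2
  linarith

theorem nu_lab0 (C : ℝ) : ∃ R : ℝ, ∀ x, R < E.rr x → C < E.nu s (E.lab x) x :=
  (E.nu_lab s E.P.cpt C).imp fun _ h x a => h x x a a (E.nr_self x)

/-- far out, the clamped level of a positive edge is `mu (A e)` clipped at `1` -/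
theorem sT_mu {ε : ℝ} (hε : 0 < ε) : ∃ R : ℝ, ∀ x, R < E.rr x → ∀ e : Ed ι, e.k.2 = true →
    |max 0 (min 1 (E.sT s e x)) - min 1 (E.mu s (A e) x)| ≤ ε := by
  obtain ⟨R1, h1⟩ := E.clamp s (ε := ε / 3) (by positivity)
  obtain ⟨R2, h2⟩ := E.sv0 (sv_h s) (ε := ε / 3) (by positivity)
  obtain ⟨R3, h3⟩ := E.mu_near0 s 1 (ε := ε / 3) (by positivity)
  obtain ⟨R4, h4⟩ := E.far E.P.cpt 1
  refine ⟨max (max R1 R2) (max R3 R4), fun x a e k => ?_⟩
  simp only [max_lt_iff] at a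
  have k1 := abs_le.1 (h1 x a.1.1 e)
  have k2 := abs_le.1 (h2 x a.1.2 _ (E.v_mem x) e)
  obtain ⟨k3, k4⟩ := h3 x a.2.1 _ (E.v_mem x) (A e)
  rw [h_true D s k (h4 x x a.2.2 (E.nr_self x) _ (E.v_mem x)), ← hT] at k2
  have k5 : |min 1 (Lv.mu D.mir s (A e) (E.v x)) - min 1 (E.mu s (A e) x)| ≤ ε / 3 := by
    rcases le_total 1 (Lv.mu D.mir s (A e) (E.v x)) with p | p <;> rcases le_total 1 (E.mu s (A e) x) with q | q <;>
      simp only [min_eq_left, min_eq_right, p, q, abs_le] <;> constructor <;>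
      first | linarith | linarith [k3 q] | linarith [k4 p]
  rw [abs_le] at k5 ⊢
  constructor <;> linarith [k1.1, k1.2, k2.1, k2.2, k5.1, k5.2]

theorem hA1 {ε : ℝ} (hε : 0 < ε) : ∃ R : ℝ, ∀ (e : Ed ι) x b, e.k.2 = true → R < E.rr x → b ∈ A e →
    min 1 (E.nu s b x) ≤ max 0 (E.sT s e x) + ε := by
  refine (E.sT_mu s hε).imp fun R h e x b k a c => ?_
  have := min_le_min (le_refl 1) (E.mu_mono s (singleton_subset_iff.2 c) x)
  rw [nu_eq]
  linarith [(abs_le.1 (h x a e k)).1, max_le_max (le_refl 0) (min_le_right 1 (E.sT s e x))]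

theorem hA2 {ε : ℝ} (hε : 0 < ε) : ∃ R : ℝ, ∀ (e : Ed ι) x, e.k.2 = true → R < E.rr x →
    ε < E.sT s e x → ∃ b ∈ A e, min 1 (E.sT s e x) < E.nu s b x + ε := by
  obtain ⟨R1, h1⟩ := E.sT_mu s (ε := min ε 1 / 2) (by positivity)
  obtain ⟨R2, h2⟩ := E.mu_le_nu s 1 (ε := min ε 1 / 4) (by positivity)
  refine ⟨max R1 R2, fun e x k a b => ?_⟩
  have k1 := (abs_le.1 (h1 x ((le_max_left _ _).trans_lt a) e k)).2
  have k2 := min_le_right 1 (E.mu s (A e) x)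
  have k3 := le_max_right 0 (min 1 (E.sT s e x))
  have k4 : min ε 1 ≤ min 1 (E.sT s e x) := le_min (min_le_right _ _) ((min_le_left _ _).trans b.le)
  have k5 : 0 < min ε 1 := by positivity
  obtain ⟨t, t1, t2⟩ := h2 x ((le_max_right _ _).trans_lt a) (A e) (by linarith)
  exact ⟨t, t1, by linarith [min_le_left ε 1]⟩

/-- the levels are coarsely Lipschitz -/
theorem sT_near (hK : IsCompact K') : ∃ C : ℕ, ∀ x y, Nr G K' x y → ∀ w ∈ E.Vs y, ∀ e,
    |E.sT s e x - (cut D s).H e w| ≤ C := by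
  obtain ⟨d, h1⟩ := E.near hK
  exact (H_lip D s d).imp fun C h x y a w b e => E.abs_av_sub fun u k => h u w (h1 x y a u k w b) e

variable [Finite K] [T2Space T]

/-- **(L4)** -/
theorem out_compact (R C : ℝ) (N : ℕ) (r : FreeGroup ι) :
    IsCompact {x | E.rr x ≤ R ∧ ∀ e, Out r N e → E.sT s e x ≤ C} := by
  obtain ⟨d, h1⟩ := E.rr_near E.P.cpt
  obtain ⟨C', h2⟩ := E.sT_near s E.P.cpt
  refine E.isCompact_of (out_fin D s (⌈R⌉₊ + d) N (⌈C⌉₊ + C') r) ?_ fun x hx => ⟨?_, fun e a => ?_⟩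
  · simp only [ofPred_and, ofPred_forall]
    exact (isClosed_le E.rr.continuous continuous_const).inter (isClosed_iInter fun e =>
      isClosed_iInter fun _ => isClosed_le (E.sT s e).continuous continuous_const)
  · have := (abs_le.1 (h1 x x (E.nr_self x) _ (E.v_mem x))).1
    exact_mod_cast (show (rad D.mir (E.v x) : ℝ) ≤ ⌈R⌉₊ + d by linarith [hx.1, Nat.le_ceil R])
  · have := (abs_le.1 (h2 x x (E.nr_self x) _ (E.v_mem x) e)).1
    push_cast
    linarith [hx.2 e a, Nat.le_ceil C]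

theorem win_compact (R a b : ℝ) (e : Ed ι) : IsCompact {x | E.rr x ≤ R ∧ a ≤ E.sT s e x ∧ E.sT s e x ≤ b} := by
  refine (E.out_compact s R (max b (-a)) 0 e.v).of_isClosed_subset ((isClosed_le E.rr.continuous
    continuous_const).inter ((isClosed_le continuous_const (E.sT s e).continuous).inter
      (isClosed_le (E.sT s e).continuous continuous_const))) fun x hx => ⟨hx.1, fun e' k => ?_⟩
  by_cases n : e' = e
  · exact n ▸ hx.2.2.trans (le_max_left _ _)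
  · have := E.sT_bey s (bey_same (d_eq_zero.1 k.1).symm n) x
    rw [sT_rev] at this
    linarith [hx.2.1, le_max_right b (-a)]

end Av

end Crest.Agent.N255.Lv
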