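import Crest.Agent.N255.Lv.Pt
import Crest.Agent.N255.En.Defs

/-!
# Row 255 (helper86, after helper32's `Lv/Pt`): the level functions for an abstract mirror model over the
tree of the free group
-/

set_option autoImplicit false
set_option linter.unusedSectionVars false
set_option linter.unusedVariables false

noncomputable section

namespace Crest.Agent.N255.Lv

open FreeGroup Pt Fa Ra
open scoped Classical

variable {ι S K : Type} [DecidableEq ι] [DecidableEq S] [MulAction (FreeGroup ι) S]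

/-- a mirror model over the tree of the free group with its walls -/
structure TM (M : Ce.Mir S K (FreeGroup ι) (Nd ι) (Ed ι)) (w : En.Wl ι S) where
  Γ_eq : w.Γ = M.Γ
  ρ_eq : ∀ f a, M.ρ f a = f • a
  src_eq : M.src = src
  tgt_eq : M.tgt = tgt
  nd : S → Nd ι
  nd_smul : ∀ (g : FreeGroup ι) a, nd (g • a) = g • nd a
  mem_T : ∀ e a, a ∈ w.T e ↔ nd a = tgt e
  mem_B : ∀ e a, a ∈ w.B e ↔ Hd e (nd a)
  sp_tgt : ∀ e a, a ∈ M.sp (tgt e) ↔ a ∈ w.T e
  sp_none : ∀ v a, a ∈ M.sp ⟨v, none⟩ ↔ En (nd a) v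

namespace TM

variable {M : Ce.Mir S K (FreeGroup ι) (Nd ι) (Ed ι)} {w : En.Wl ι S} (Z : TM M w)
  {e e' : Ed ι} {a b : S}
include Z

theorem A_trich (e : Ed ι) (a : S) : a ∈ w.B e ∨ a ∈ w.B (rev e) ∨ a ∈ w.T e := by
  rw [Z.mem_T, Z.mem_B, Z.mem_B]; exact trich e _

theorem A_not_rev (h : a ∈ w.B e) : a ∉ w.B (rev e) := fun k => w.BB e a a h k (En.Cl.rfl a)



theorem A_sep (h : M.Γ.Adj a b) (k : a ∈ w.B e) : b ∉ w.B (rev e) := fun c =>
  w.BB e a b k c (.inr (Z.Γ_eq ▸ h))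

theorem sp_mem_A {v : FreeGroup ι} (h : a ∈ M.sp ⟨v, none⟩) (k : a ∈ w.B e) : hs e v :=
  (Z.mem_B _ _).1 k _ ((Z.sp_none _ _).1 h)

theorem sp_nmem_A {v : FreeGroup ι} (h : hs e v) (k : a ∈ M.sp ⟨v, none⟩) : a ∉ w.B (rev e) := fun c =>
  not_Hd_rev ((Z.sp_none _ _).1 k) h ((Z.mem_B _ _).1 c)


theorem image_A (g : FreeGroup ι) (e : Ed ι) : M.ρ g '' w.B e = w.B (g • e) := by
  ext a
  obtain ⟨a, rfl⟩ := MulAction.surjective g a
  rw [w.B_smul]
  show g • a ∈ _ ↔ _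
  rw [← Z.ρ_eq]
  exact (M.ρ g).injective.mem_set_image

theorem ds_A_zero {x : Vt M} (h : a ∈ Init x.1) (k : a ∈ w.B e) : ds M (w.B (rev e)) x = 0 :=
  ds_eq_zero.2 fun b hb hb' => by
    by_cases c : a = b
    · exact Z.A_not_rev k (c ▸ hb)
    · exact A_sep Z (Init_clique x.1 h hb' c) k hb

variable [Nonempty S] [Finite ι]

/-- a deepest wall -/
def lb0 (_Z : TM M w) (x : Vt M) : S :=
  if h : 0 < rad M x then (exists_max h).choose else Classical.arbitrary S

/-- **the label**: an equivariant choice of a deepest wall -/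
def lb (x : Vt M) : S := x.2.v • lb0 Z (ac M x.2.v⁻¹ x)

variable {x y : Vt M}

theorem lb_ac (f : FreeGroup ι) (x : Vt M) : lb Z (ac M f x) = f • lb Z x := by
  rw [lb, ac_snd, smul_v, mul_inv_rev, ac_mul, ac_inv, mul_smul, lb]

theorem lb_spec (h : 0 < rad M x) : rad M x ≤ 4 * n M (lb Z x) x ∧ 0 < n M (lb Z x) x ∧
    ∀ b, n M b x ≤ n M (lb Z x) x := by
  have k : 0 < rad M (ac M x.2.v⁻¹ x) := by rwa [rad_ac]
  obtain ⟨-, h1, h2, h3⟩ := (exists_max k).choose_spec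
  have e : n M (lb Z x) x = n M (exists_max k).choose (ac M x.2.v⁻¹ x) := by
    have := n_ac x.2.v (exists_max k).choose (ac M x.2.v⁻¹ x)
    rw [ac_inv', Z.ρ_eq] at this
    rw [lb, lb0, dif_pos k]
    exact this
  rw [e]
  exact ⟨(rad_ac _ _).symm.trans_le h1, h2, fun b => (n_ac x.2.v⁻¹ b x).symm.trans_le (h3 _ trivial)⟩

theorem lb_init (h : 0 < rad M x) : lb Z x ∈ Init x.1 := n_pos.1 (lb_spec Z h).2.1

theorem lb_init' {d : ℕ} (h : dl M x y ≤ d) (k : 4 * d < rad M x) : lb Z x ∈ Init y.1 := by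
  have := (lb_spec Z (x := x) (by omega)).1
  have := n_lip (lb Z x) y x
  rw [dl_comm'] at this
  exact n_pos.1 (by omega)

/-- far out, labels of nearby vertices are adjacent or equal -/
theorem lb_adj {d : ℕ} (h : dl M x y ≤ d) (k : 5 * d < rad M x) (e : lb Z x ≠ lb Z y) :
    M.Γ.Adj (lb Z x) (lb Z y) := by
  have := rad_lip y x
  rw [dl_comm'] at this
  exact Init_clique y.1 (lb_init' Z h (by omega)) (lb_init Z (by omega)) e

/-- the position in the tree -/
def pos (x : Vt M) : Nd ι := if rad M x = 0 then x.2 else Z.nd (lb Z x)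

theorem pos_far (h : 0 < rad M x) : pos Z x = Z.nd (lb Z x) := if_neg h.ne'

theorem pos_ac (f : FreeGroup ι) (x : Vt M) : pos Z (ac M f x) = f • pos Z x := by
  unfold pos
  rw [rad_ac, lb_ac, ac_snd]
  split_ifs
  exacts [rfl, Z.nd_smul _ _]

variable {c : ℕ → ℕ} (s : Slow c)

theorem nu_lb (C : ℝ) : ∃ R, ∀ x, R ≤ rad M x → C ≤ nu M s (lb Z x) x := by
  obtain ⟨R, h⟩ := s.q_top C 4
  exact ⟨R + 1, fun x a => h _ (by omega) _ (lb_spec Z (by omega)).1⟩


/-- the asymmetric cut function -/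
def hq (_Z : TM M w) (s : Slow c) (e : Ed ι) (x : Vt M) : ℝ :=
  if rad M x = 0 then (if Hd e x.2 then 1 else 0) else min 1 (mu M s (w.B e) x)

omit [Nonempty S] in
theorem hq_mem (e : Ed ι) (x : Vt M) : 0 ≤ hq Z s e x ∧ hq Z s e x ≤ 1 := by
  unfold hq
  split_ifs
  exacts [⟨zero_le_one, le_rfl⟩, ⟨le_rfl, zero_le_one⟩, ⟨le_min zero_le_one (mu_nn s _ _), min_le_left _ _⟩]

theorem hq_one (h : Hd e (pos Z x)) : hq Z s e x = 1 := by
  unfold pos at h
  unfold hq
  split_ifs at h with a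
  · rw [if_pos a, if_pos h]
  · have := lb_spec Z (Nat.pos_of_ne_zero a)
    have := n_le_ds (Z := w.B e) ((Z.mem_B _ _).2 h) x
    rw [if_neg a]
    exact min_eq_left (s.one_le_q (by omega) (by omega))

theorem hq_zero (h : Hd (rev e) (pos Z x)) : hq Z s e x = 0 := by
  unfold pos at h
  unfold hq
  split_ifs at h with a
  · rw [if_pos a, if_neg fun b : Hd e x.2 => b.not_rev h]
  · have := ds_A_zero Z (lb_init Z (Nat.pos_of_ne_zero a)) ((Z.mem_B _ _).2 h)
    rw [rev_rev] at this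
    rw [if_neg a, mu, this, s.q_zero, min_eq_right zero_le_one]

omit [Nonempty S] in
theorem hq_ac (f : FreeGroup ι) (e : Ed ι) (x : Vt M) : hq Z s (f • e) (ac M f x) = hq Z s e x := by
  unfold hq
  rw [rad_ac, ac_snd, Hd_smul, ← Z.image_A, mu_ac]

/-- **the cut functions** -/
def cut : Cut ι (Vt M) where
  pos := pos Z
  h e x := if e.k.2 then hq Z s e x else 1 - hq Z s (rev e) x
  nn e x := by
    split_ifs
    exacts [(hq_mem Z s _ _).1, sub_nonneg.2 (hq_mem Z s _ _).2]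
  h_rev e x := by cases h : e.k.2 <;> simp [op, h]
  one e x h := by
    split_ifs
    · exact hq_one Z s h
    · rw [hq_zero Z s (by rwa [rev_rev]), sub_zero]

theorem cut_pos : (cut Z s).pos = pos Z := rfl

theorem h_true (h : e.k.2 = true) (k : 0 < rad M x) : (cut Z s).h e x = min 1 (mu M s (w.B e) x) :=
  (if_pos h).trans (if_neg k.ne')

theorem h_false (h : e.k.2 = false) (k : 0 < rad M x) :
    (cut Z s).h e x = 1 - min 1 (mu M s (w.B (rev e)) x) :=
  (if_neg (by simp [h])).trans (congrArg _ (if_neg k.ne'))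

theorem h_ac (f : FreeGroup ι) (e : Ed ι) (x : Vt M) : (cut Z s).h (f • e) (ac M f x) = (cut Z s).h e x := by
  simp only [cut, smul_k, rev_smul, hq_ac]

theorem H_ac (f : FreeGroup ι) (e : Ed ι) (x : Vt M) : (cut Z s).H (f • e) (ac M f x) = (cut Z s).H e x :=
  (cut Z s).H_smul f (fun e => h_ac Z s f e x) e

theorem h_slow {ε : ℝ} (hε : 0 < ε) (d : ℕ) : ∃ R, ∀ x y, R ≤ rad M x → dl M x y ≤ d → ∀ e,
    |(cut Z s).h e x - (cut Z s).h e y| ≤ ε := by
  obtain ⟨R, h⟩ := min_mu_slow M s 1 hε d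
  refine ⟨R + d + 1, fun x y a b e => ?_⟩
  have := rad_lip y x
  rw [dl_comm'] at this
  cases k : e.k.2
  · rw [h_false Z s k (by omega), h_false Z s k (by omega), sub_sub_sub_cancel_left, abs_sub_comm]
    exact h x y (by omega) b _
  · rw [h_true Z s k (by omega), h_true Z s k (by omega)]
    exact h x y (by omega) b _

/-- **slow variation of the levels** -/
theorem H_slow {ε : ℝ} (hε : 0 < ε) (d : ℕ) : ∃ R, ∀ x y, R ≤ rad M x → dl M x y ≤ d → ∀ e,
    |(cut Z s).H e x - (cut Z s).H e y| ≤ ε := by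
  obtain ⟨R, h⟩ := h_slow Z s (ε := min (ε / 9) (1 / 2)) (by positivity) d
  refine ⟨R, fun x y a b e => ((cut Z s).H_slow ((min_le_right _ _).trans_lt (by norm_num)) (h x y a b) e).trans ?_⟩
  linarith [min_le_left (ε / 9) (1 / 2)]

/-- the levels are uniformly coarsely Lipschitz -/
theorem H_lip (d : ℕ) : ∃ C : ℕ, ∀ x y, dl M x y ≤ d → ∀ e, |(cut Z s).H e x - (cut Z s).H e y| ≤ C := by
  obtain ⟨R, h⟩ := H_slow Z s one_pos d
  obtain ⟨B, hB, k⟩ := cocpt M R
  obtain ⟨N, hN⟩ := ((hB.biUnion fun b _ => (ball_fin b d).image fun y =>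
    {e | (cut Z s).h e b ≠ (cut Z s).h e y}.ncard)).bddAbove
  refine ⟨1 + 2 * N, fun x y a e => ?_⟩
  push_cast
  rcases le_total R (rad M x) with b | b
  · exact (h x y b a e).trans (le_add_of_nonneg_right (by positivity))
  · obtain ⟨f, hf⟩ := k x b
    rw [← H_ac Z s f e x, ← H_ac Z s f e y]
    refine ((cut Z s).H_sub (fun e => (cut Z s).h_sub e _ _) _).trans ?_
    have : ({e | (cut Z s).h e (ac M f x) ≠ (cut Z s).h e (ac M f y)}.ncard : ℝ) ≤ N :=
      Nat.cast_le.2 (hN (Set.mem_biUnion hf ⟨ac M f y, (dl_ac f x y).trans_le a, rfl⟩))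
    linarith

theorem one_le_H (h : 0 < rad M x) (k : lb Z x ∈ w.B e) : 1 ≤ (cut Z s).H e x :=
  (cut Z s).one_le_H (by rwa [cut_pos, pos_far Z h, ← Z.mem_B])


theorem pos_finite (R N : ℕ) (r : FreeGroup ι) : {x | rad M x ≤ R ∧ d r (pos Z x).v ≤ N}.Finite := by
  obtain ⟨B, hB, k⟩ := cocpt M R
  refine (hB.biUnion fun b _ => (ball_finite r N).image fun u => ac M (u * (pos Z b).v⁻¹) b).subset
    fun x hx => ?_
  obtain ⟨f, hf⟩ := k x hx.1
  refine Set.mem_biUnion hf ⟨_, hx.2, ?_⟩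
  simp only [pos_ac, smul_v, mul_inv_rev, mul_inv_cancel_left, ac_inv]

/-- **(L4) on vertices** -/
theorem out_fin (R N C : ℕ) (r : FreeGroup ι) :
    {x | rad M x ≤ R ∧ ∀ e, Out r N e → (cut Z s).H e x ≤ C}.Finite :=
  (pos_finite Z R _ r).subset fun _ h => ⟨h.1, (cut Z s).d_le h.2⟩


end TM

end Crest.Agent.N255.Lv
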