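import Crest.Agent.N255.Pt.Tree

/-!
# Row 255 (helper32): sides of the edges of the Cayley tree
-/

set_option autoImplicit false

noncomputable section

namespace Crest.Agent.N255.Lv

open FreeGroup Pt

variable {ι : Type}

/-- the head of an oriented edge -/
def hd (e : Ed ι) : FreeGroup ι := e.v * x e.k

/-- the reversed edge -/
def rev (e : Ed ι) : Ed ι := ⟨hd e, op e.k⟩

@[simp] theorem rev_v (e : Ed ι) : (rev e).v = hd e := rfl
@[simp] theorem rev_k (e : Ed ι) : (rev e).k = op e.k := rfl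
@[simp] theorem hd_rev (e : Ed ι) : hd (rev e) = e.v := by simp [hd, rev]
@[simp] theorem rev_rev (e : Ed ι) : rev (rev e) = e := L.ext (hd_rev e) (op_op _)
@[simp] theorem tgt_rev (e : Ed ι) : tgt (rev e) = tgt e := tgt_op e
theorem rev_ne (e : Ed ι) : rev e ≠ e := fun h => op_ne e.k (congrArg L.k h)
theorem rev_injective : Function.Injective (rev (ι := ι)) := fun a b h => by
  rw [← rev_rev a, h, rev_rev]
theorem hd_smul (g : FreeGroup ι) (e : Ed ι) : hd (g • e) = g * hd e := mul_assoc _ _ _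
theorem rev_smul (g : FreeGroup ι) (e : Ed ι) : rev (g • e) = g • rev e := L.ext (hd_smul g e) rfl
theorem tgt_eq' {e e' : Ed ι} (h : tgt e = tgt e') : e' = e ∨ e' = rev e := tgt_eq h

/-- the ends of a node -/
def En (t : Nd ι) (u : FreeGroup ι) : Prop := u = t.v ∨ ∃ i, t.k = some i ∧ u = t.v * x (i, true)

theorem en_v (t : Nd ι) : En t t.v := .inl rfl

theorem en_none {v u : FreeGroup ι} : En ⟨v, none⟩ u ↔ u = v := by simp [En]

theorem en_tgt {e : Ed ι} {u : FreeGroup ι} : En (tgt e) u ↔ u = e.v ∨ u = hd e := by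
  obtain ⟨v, i, _ | _⟩ := e
  · simp [En, tgt, hd, x_true, x_false, or_comm]
  · simp [En, tgt, hd]

theorem en_smul (g : FreeGroup ι) {t : Nd ι} {u : FreeGroup ι} : En (g • t) (g * u) ↔ En t u := by
  simp [En, mul_assoc]

theorem node_cases (t : Nd ι) : (∃ v, t = ⟨v, none⟩) ∨ ∃ e, t = tgt e := by
  obtain ⟨v, _ | i⟩ := t
  · exact .inl ⟨v, rfl⟩
  · exact .inr ⟨⟨v, i, true⟩, rfl⟩

theorem finite_tgt (t : Nd ι) : {e : Ed ι | tgt e = t}.Finite := by
  rcases Set.eq_empty_or_nonempty {e : Ed ι | tgt e = t} with h | ⟨e, he⟩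
  · simp [h]
  · exact (Set.toFinite {e, rev e}).subset fun e' h => tgt_eq' (he.trans h.symm)

theorem ncard_tgt (t : Nd ι) : {e : Ed ι | tgt e = t}.ncard ≤ 2 := by
  rcases Set.eq_empty_or_nonempty {e : Ed ι | tgt e = t} with h | ⟨e, he⟩
  · simp [h]
  · exact (Set.ncard_le_ncard (t := {e, rev e}) (fun e' h => tgt_eq' (he.trans h.symm))).trans
      (by simpa using Set.ncard_insert_le e {rev e})

variable [DecidableEq ι]

/-- the distance in the tree -/
def d (u v : FreeGroup ι) : ℕ := norm (u⁻¹ * v)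

@[simp] theorem d_self (u : FreeGroup ι) : d u u = 0 := by simp [d]

theorem d_comm (u v : FreeGroup ι) : d u v = d v u := by
  rw [d, ← norm_inv_eq, mul_inv_rev, inv_inv, d]

theorem d_tri (u v w : FreeGroup ι) : d u w ≤ d u v + d v w := by
  have := norm_mul_le (u⁻¹ * v) (v⁻¹ * w)
  simpa [d, mul_assoc] using this

theorem d_eq_zero {u v : FreeGroup ι} : d u v = 0 ↔ u = v := by simp [d, inv_mul_eq_one]

@[simp] theorem d_mul (g u v : FreeGroup ι) : d (g * u) (g * v) = d u v := by simp [d, mul_assoc]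

theorem d_x (r u : FreeGroup ι) (j : ι × Bool) : d r (u * x j) + 1 = d r u ∨ d r (u * x j) = d r u + 1 := by
  simpa [d, mul_assoc] using norm_mul_x (r⁻¹ * u) j

theorem d_hd (e : Ed ι) : d e.v (hd e) = 1 := by simp [d, hd]

theorem d_down {r u : FreeGroup ι} {n : ℕ} (h : d r u = n + 1) : ∃ j, d r (u * x j) = n := by
  obtain ⟨j, hj⟩ := down_exists (u := r⁻¹ * u) fun a => by simp [d, a] at h
  refine ⟨j, ?_⟩
  have := d_x r u j
  rw [mul_assoc] at hj
  change d r (u * x j) < d r u at hj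
  omega

theorem d_uniq {r u : FreeGroup ι} {j j' : ι × Bool} (h : d r (u * x j) < d r u) (h' : d r (u * x j') < d r u) :
    j = j' :=
  down_unique (u := r⁻¹ * u) (by simpa [d, mul_assoc] using h) (by simpa [d, mul_assoc] using h')

theorem ball_finite [Finite ι] (r : FreeGroup ι) (n : ℕ) : {u | d r u ≤ n}.Finite := by
  induction n with
  | zero => exact (Set.finite_singleton r).subset fun u h => (d_eq_zero.1 (Nat.le_zero.1 h)).symm
  | succ n ih =>
    refine (ih.union (ih.image2 (fun u j => u * x j) Set.finite_univ)).subset fun u h => ?_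
    rcases Nat.lt_or_eq_of_le h with a | a
    · exact .inl (Nat.lt_succ_iff.1 a)
    · obtain ⟨j, hj⟩ := d_down a
      exact .inr ⟨_, hj.le, op j, trivial, by simp⟩

theorem exists_mid (u : FreeGroup ι) (N : ℕ) : ∀ r, N ≤ d u r → ∃ v, d v r = N ∧ d u v + N = d u r := by
  induction N with
  | zero => exact fun r _ => ⟨r, by simp, rfl⟩
  | succ N ih =>
    intro r h
    obtain ⟨v, h1, h2⟩ := ih r (by omega)
    obtain ⟨j, hj⟩ := d_down (r := u) (u := v) (n := d u v - 1) (by omega)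
    have a := d_tri u (v * x j) r
    have b := d_x r v j
    rw [d_comm r, d_comm r] at b
    exact ⟨v * x j, by omega, by omega⟩

/-- the vertices on the head side -/
def hs (e : Ed ι) (u : FreeGroup ι) : Prop := d u (hd e) < d u e.v

variable {e e' e'' : Ed ι} {u u' : FreeGroup ι} {t t' : Nd ι}

theorem hs_iff : hs e u ↔ d u (hd e) + 1 = d u e.v := by
  have := d_x u e.v e.k
  unfold hs hd; omega

theorem hs_rev : hs (rev e) u ↔ ¬hs e u := by
  have := d_x u e.v e.k
  simp only [hs, hd_rev, rev_v]; unfold hd; omega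

theorem hs_hd (e : Ed ι) : hs e (hd e) := by
  rw [hs, d_self, d_comm, d_hd]; exact one_pos

theorem not_hs_v (e : Ed ι) : ¬hs e e.v := by simp [hs]

theorem hs_smul (g : FreeGroup ι) : hs (g • e) (g * u) ↔ hs e u := by simp [hs, hd_smul]

/-- only `e` crosses the separation defined by `e` -/
theorem cross (h : hs e e'.v) (h' : ¬hs e (hd e')) : e' = rev e := by
  have h1 := hs_iff.1 h
  have h2 := hs_iff.1 (hs_rev.2 h')
  simp only [hd_rev, rev_v] at h2
  have a := d_x (hd e) e'.v e'.k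
  have b := d_x e.v e'.v e'.k
  rw [d_comm e'.v, d_comm e'.v] at h1
  rw [d_comm (hd e'), d_comm (hd e')] at h2
  change d _ (hd e') + 1 = _ ∨ d _ (hd e') = _ at a b
  rcases Nat.eq_zero_or_eq_succ_pred (d (hd e) e'.v) with c | c
  · have e1 := d_eq_zero.1 c
    have e2 := d_eq_zero.1 (show d e.v (hd e') = 0 by omega)
    refine L.ext e1.symm (x_injective ?_)
    rw [hd, ← e1, hd, mul_assoc] at e2
    rw [rev_k, x_op]
    exact (eq_inv_of_mul_eq_one_right (by simpa using e2))
  · obtain ⟨j, hj⟩ := d_down c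
    have k := d_tri e.v (hd e) (e'.v * x j)
    rw [d_hd] at k
    obtain rfl : j = e'.k := d_uniq (r := e.v) (u := e'.v) (by omega) (show d _ (hd e') < _ by omega)
    change d _ (hd e') = _ at hj
    omega

theorem gate (n : ℕ) : ∀ u, hs e u → ¬hs e u' → d u' u = n → d u' e.v + 1 + d (hd e) u ≤ n := by
  induction n with
  | zero => exact fun u h h' a => absurd (d_eq_zero.1 a ▸ h) h'
  | succ n ih =>
    intro u h h' a
    obtain ⟨j, hj⟩ := d_down a
    by_cases c : hs e (u * x j)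
    · have := ih _ c h' hj
      have := d_x (hd e) u j
      omega
    · have k := cross (e' := ⟨u, j⟩) h c
      have k1 : u = hd e := congrArg L.v k
      have k2 : u * x j = e.v := (congrArg hd k).trans (hd_rev e)
      rw [k2] at hj
      rw [k1, d_self]
      omega

theorem sep_finite (u : FreeGroup ι) (n : ℕ) : ∀ u', d u u' = n → {e : Ed ι | hs e u' ∧ ¬hs e u}.Finite := by
  induction n with
  | zero => intro u' h; simp [d_eq_zero.1 h]
  | succ n ih =>
    intro u' h
    obtain ⟨j, hj⟩ := d_down h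
    refine ((ih _ hj).insert (rev ⟨u', j⟩)).subset fun e he => ?_
    by_cases c : hs e (u' * x j)
    · exact .inr ⟨c, he.2⟩
    · exact .inl (by rw [cross (e' := ⟨u', j⟩) he.1 c, rev_rev])

/-- the nodes strictly on the head side -/
def Hd (e : Ed ι) (t : Nd ι) : Prop := ∀ u, En t u → hs e u

theorem Hd_none : Hd e ⟨u, none⟩ ↔ hs e u := by simp [Hd, en_none]

theorem Hd_tgt : Hd e (tgt e') ↔ hs e e'.v ∧ hs e (hd e') := by simp [Hd, en_tgt]

theorem not_Hd_tgt (e : Ed ι) : ¬Hd e (tgt e) := fun h => not_hs_v e (Hd_tgt.1 h).1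

theorem not_Hd_rev (h : En t u) (k : hs e u) : ¬Hd (rev e) t := fun a => hs_rev.1 (a u h) k

theorem Hd.not_rev (h : Hd e t) : ¬Hd (rev e) t := not_Hd_rev (en_v t) (h _ (en_v t))

theorem Hd_smul (g : FreeGroup ι) : Hd (g • e) (g • t) ↔ Hd e t :=
  ⟨fun h u a => (hs_smul g).1 (h _ ((en_smul g).2 a)), fun h u a => by
    obtain ⟨u, rfl⟩ := (Group.mulLeft_bijective g).2 u
    exact (hs_smul g).2 (h u ((en_smul g).1 a))⟩

theorem trich (e : Ed ι) (t : Nd ι) : Hd e t ∨ Hd (rev e) t ∨ t = tgt e := by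
  rcases node_cases t with ⟨v, rfl⟩ | ⟨e', rfl⟩
  · rw [Hd_none, Hd_none, hs_rev]; tauto
  · rw [Hd_tgt, Hd_tgt, hs_rev, hs_rev]
    by_cases a : hs e e'.v <;> by_cases b : hs e (hd e')
    · exact .inl ⟨a, b⟩
    · exact .inr (.inr (by rw [cross a b, tgt_rev]))
    · refine .inr (.inr ?_)
      rw [← tgt_rev e', cross (e := e) (e' := rev e') b (by simpa using a), tgt_rev]
    · exact .inr (.inl ⟨a, b⟩)

theorem Sep_finite (t t' : Nd ι) : {e : Ed ι | Hd e t ∧ ¬Hd e t'}.Finite := by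
  refine ((sep_finite t'.v _ t.v rfl).union (finite_tgt t')).subset fun e he => ?_
  rcases trich e t' with a | a | a
  · exact absurd a he.2
  · exact .inl ⟨he.1 _ (en_v t), hs_rev.1 (a _ (en_v t'))⟩
  · exact .inr a.symm

/-- `e'` lies beyond `e` and points away from it -/
def Bey (e e' : Ed ι) : Prop := ∀ t, ¬Hd (rev e') t → Hd e t

theorem Bey.symm (h : Bey e e') : Bey (rev e') (rev e) := fun t a => by
  rw [rev_rev] at a
  exact not_not.1 fun b => a (h t b)

theorem Bey.hd (h : Bey e e') (a : Hd e' t) : Hd e t := h t a.not_rev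

theorem Bey.trans (h : Bey e e') (h' : Bey e' e'') : Bey e e'' := fun t a => h.hd (h' t a)

theorem Bey.tgt (h : Bey e e') : Hd e (tgt e') := h _ (tgt_rev e' ▸ not_Hd_tgt _)

theorem not_bey_self (e : Ed ι) : ¬Bey e e := fun h => not_Hd_tgt e h.tgt

theorem not_bey_rev (e : Ed ι) : ¬Bey e (rev e) := fun h => not_Hd_tgt e (tgt_rev e ▸ h.tgt)

theorem bey_smul (g : FreeGroup ι) : Bey (g • e) (g • e') ↔ Bey e e' :=
  ⟨fun h t a => (Hd_smul g).1 (h _ (by rwa [rev_smul, Hd_smul])), fun h t a => by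
    obtain ⟨t, rfl⟩ := MulAction.surjective g t
    exact (Hd_smul g).2 (h t (by rwa [rev_smul, Hd_smul] at a))⟩

theorem bey_iff : Bey e e' ↔ hs e e'.v ∧ ¬hs e' e.v := by
  refine ⟨fun h => ⟨(Hd_tgt.1 h.tgt).1, hs_rev.1 (by simpa using (Hd_tgt.1 h.symm.tgt).2)⟩, fun h => ?_⟩
  have key : ∀ u, hs e' u → hs e u := fun u a => not_not.1 fun b => by
    have a1 := gate _ u a h.2 rfl
    have a2 := gate _ _ h.1 b rfl
    have a3 := hs_iff.1 a
    rw [d_comm u e.v] at a2
    rw [d_comm u (hd e')] at a3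
    omega
  intro t a
  rcases trich e' t with b | b | rfl
  · exact fun u c => key u (b u c)
  · exact absurd b a
  · exact Hd_tgt.2 ⟨h.1, key _ (hs_hd _)⟩

/-- consecutive edges -/
theorem bey_next (h : e'.v = hd e) (n : e' ≠ rev e) : Bey e e' := by
  refine bey_iff.2 ⟨h ▸ hs_hd e, fun a => n ?_⟩
  have := cross (e := e') (e' := e) a (h ▸ not_hs_v e')
  rw [this, rev_rev]

/-- edges with the same origin -/
theorem bey_same (h : e'.v = e.v) (n : e' ≠ e) : Bey (rev e) e' :=
  bey_next (by simpa using h) (by simpa using n)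

theorem bey_total (e e' : Ed ι) : e' = e ∨ e' = rev e ∨ Bey e e' ∨ Bey e (rev e') ∨ Bey (rev e) e' ∨
    Bey (rev e) (rev e') := by
  simp only [bey_iff, hs_rev, rev_v, not_not]
  by_cases a : hs e e'.v <;> by_cases b : hs e (hd e')
  · tauto
  · exact .inr (.inl (cross a b))
  · exact .inl (rev_injective (cross (e := e) (e' := rev e') b (by simpa using a)))
  · tauto

theorem bey_finite (e : Ed ι) (t : Nd ι) : {e' | Bey e e' ∧ ¬Hd (rev e') t}.Finite :=
  ((Sep_finite (tgt e) t).preimage rev_injective.injOn).subset fun _ h =>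
    ⟨tgt_rev e ▸ h.1.symm.tgt, h.2⟩

/-- the edges at depth `N` pointing away from `r` -/
def Out (r : FreeGroup ι) (N : ℕ) (e : Ed ι) : Prop := d r e.v = N ∧ ¬hs e r


theorem exists_out (r u : FreeGroup ι) {N : ℕ} (h : N < d r u) :
    ∃ e, Out r N e ∧ hs e u ∧ d u (hd e) + N + 1 = d r u := by
  rw [d_comm] at h
  obtain ⟨v, h1, h2⟩ := exists_mid u N r h.le
  obtain ⟨j, hj⟩ := d_down (r := u) (u := v) (n := d u v - 1) (by omega)
  have a := d_tri u (v * x j) r
  rw [d_comm v] at h1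
  rw [d_comm (v * x j)] at a
  refine ⟨⟨v, j⟩, ⟨h1, ?_⟩, ?_, ?_⟩
  · show ¬d r (v * x j) < d r v
    omega
  · show d u (v * x j) < d u v
    omega
  · show d u (v * x j) + N + 1 = _
    rw [d_comm r]; omega

end Crest.Agent.N255.Lv
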